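import Vale.Agent.P032X.H892.LtH
import Vale.Agent.P032X.H286.Z73
import Vale.Agent.P032X.Cert.X1b.A.R0Q000
import Vale.Agent.P032X.Cert.X1b.A.R0Q001
import Vale.Agent.P032X.Cert.X1b.A.R0Q002
import Vale.Agent.P032X.Cert.X1b.A.R0Q003
import Vale.Agent.P032X.Cert.X1b.A.R0Q004
import Vale.Agent.P032X.Cert.X1b.A.R0Q005
import Vale.Agent.P032X.Cert.X1b.A.R0Q006
import Vale.Agent.P032X.Cert.X1b.A.R0Q007
import Vale.Agent.P032X.Cert.X1b.A.R0Q008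
import Vale.Agent.P032X.Cert.X1b.A.R0Q009

set_option maxRecDepth 1000000

namespace Vale.Agent.P032X.Cert.X1b.A.R0H000

open Vale.Agent.P032.H820.K Vale.Agent.P032.H357.MK Vale.Agent.P032.H286.E Vale.Agent.P032.H61 

def E : List (List ℕ) := EZ 31

theorem p0 : Pat 73 73 TBm TCm E R0Q000.P0 R0Q000.I0 := pat_step (by decide +kernel) (q_cons (Vale.Agent.P032.Lt.q R0Q000.q0_0) (q_cons (Vale.Agent.P032.Lt.q R0Q000.q0_1) q_nil))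

theorem p1 : Pat 73 73 TBm TCm E R0Q000.P1 R0Q000.I1 := pat_step (by decide +kernel) (q_cons (Vale.Agent.P032.Lt.q R0Q000.q1_0) (q_cons (Vale.Agent.P032.Lt.q R0Q000.q1_1) q_nil))

theorem p2 : Pat 73 73 TBm TCm E R0Q000.P2 R0Q000.I2 := pat_step (by decide +kernel) (q_cons (Vale.Agent.P032.Lt.q R0Q000.q2_0) (q_cons (Vale.Agent.P032.Lt.q R0Q000.q2_1) (q_cons (Vale.Agent.P032.Lt.q R0Q000.q2_2) (q_cons (Vale.Agent.P032.Lt.q R0Q000.q2_3) q_nil))))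

theorem p3 : Pat 73 73 TBm TCm E R0Q000.P3 R0Q000.I3 := pat_step (by decide +kernel) (q_cons (Vale.Agent.P032.Lt.q R0Q000.q3_0) q_nil)

theorem p4 : Pat 73 73 TBm TCm E R0Q000.P4 R0Q000.I4 := pat_step (by decide +kernel) (q_cons (Vale.Agent.P032.Lt.q R0Q000.q4_0) q_nil)

theorem p5 : Pat 73 73 TBm TCm E R0Q000.P5 R0Q000.I5 := pat_step (by decide +kernel) (q_cons (Vale.Agent.P032.Lt.q R0Q000.q5_0) q_nil)

theorem p6 : Pat 73 73 TBm TCm E R0Q000.P6 R0Q000.I6 := pat_step (by decide +kernel) (q_cons (Vale.Agent.P032.Lt.q R0Q000.q6_0) q_nil)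

theorem p7 : Pat 73 73 TBm TCm E R0Q000.P7 R0Q000.I7 := pat_step (by decide +kernel) (q_cons (Vale.Agent.P032.Lt.q R0Q000.q7_0) q_nil)

theorem p8 : Pat 73 73 TBm TCm E R0Q000.P8 R0Q000.I8 := pat_step (by decide +kernel) (q_cons (Vale.Agent.P032.Lt.q R0Q000.q8_0) q_nil)

theorem p9 : Pat 73 73 TBm TCm E R0Q000.P9 R0Q000.I9 := pat_step (by decide +kernel) (q_cons (Vale.Agent.P032.Lt.q R0Q000.q9_0) q_nil)

theorem p10 : Pat 73 73 TBm TCm E R0Q000.P10 R0Q000.I10 := pat_step (by decide +kernel) (q_cons (Vale.Agent.P032.Lt.q R0Q000.q10_0) q_nil)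

theorem p11 : Pat 73 73 TBm TCm E R0Q000.P11 R0Q000.I11 := pat_step (by decide +kernel) (q_cons (Vale.Agent.P032.Lt.q R0Q000.q11_0) (q_cons (Vale.Agent.P032.Lt.q R0Q000.q11_1) (q_cons (Vale.Agent.P032.Lt.q R0Q000.q11_2) (q_cons (Vale.Agent.P032.Lt.q R0Q000.q11_3) (q_cons (Vale.Agent.P032.Lt.q R0Q000.q11_4) (q_cons (Vale.Agent.P032.Lt.q R0Q000.q11_5) (q_cons (Vale.Agent.P032.Lt.q R0Q000.q11_6) (q_cons (Vale.Agent.P032.Lt.q R0Q000.q11_7) (q_cons (Vale.Agent.P032.Lt.q R0Q000.q11_8) q_nil)))))))))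

theorem p12 : Pat 73 73 TBm TCm E R0Q000.P12 R0Q000.I12 := pat_step (by decide +kernel) (q_cons (Vale.Agent.P032.Lt.q R0Q000.q12_0) (q_cons (Vale.Agent.P032.Lt.q R0Q000.q12_1) q_nil))

theorem p13 : Pat 73 73 TBm TCm E R0Q000.P13 R0Q000.I13 := pat_step (by decide +kernel) (q_cons (Vale.Agent.P032.Lt.q R0Q000.q13_0) (q_cons (Vale.Agent.P032.Lt.q R0Q000.q13_1) q_nil))

theorem p14 : Pat 73 73 TBm TCm E R0Q001.P14 R0Q001.I14 := pat_step (by decide +kernel) (q_cons (Vale.Agent.P032.Lt.q R0Q001.q14_0) (q_cons (Vale.Agent.P032.Lt.q R0Q001.q14_1) (q_cons (Vale.Agent.P032.Lt.q R0Q001.q14_2) (q_cons (Vale.Agent.P032.Lt.q R0Q001.q14_3) (q_cons (Vale.Agent.P032.Lt.q R0Q001.q14_4) (q_cons (Vale.Agent.P032.Lt.q R0Q001.q14_5) (q_cons (Vale.Agent.P032.Lt.q R0Q001.q14_6) (q_cons (Vale.Agent.P032.Lt.q R0Q001.q14_7) (q_cons (Vale.Agent.P032.Lt.q R0Q001.q14_8) (q_cons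 (Vale.Agent.P032.Lt.q R0Q001.q14_9) (q_cons (Vale.Agent.P032.Lt.q R0Q001.q14_10) (q_cons (Vale.Agent.P032.Lt.q R0Q001.q14_11) (q_cons (Vale.Agent.P032.Lt.q R0Q001.q14_12) (q_cons (Vale.Agent.P032.Lt.q R0Q001.q14_13) (q_cons (Vale.Agent.P032.Lt.q R0Q001.q14_14) (q_cons (Vale.Agent.P032.Lt.q R0Q001.q14_15) q_nil))))))))))))))))

theorem p15 : Pat 73 73 TBm TCm E R0Q001.P15 R0Q001.I15 := pat_step (by decide +kernel) (q_cons (Vale.Agent.P032.Lt.q R0Q001.q15_0) (q_cons (Vale.Agent.P032.Lt.q R0Q001.q15_1) (q_cons (Vale.Agent.P032.Lt.q R0Q001.q15_2) (q_cons (Vale.Agent.P032.Lt.q R0Q001.q15_3) (q_cons (Vale.Agent.P032.Lt.q R0Q001.q15_4) (q_cons (Vale.Agent.P032.Lt.q R0Q001.q15_5) (q_cons (Vale.Agent.P032.Lt.q R0Q001.q15_6) (q_cons (Vale.Agent.P032.Lt.q R0Q001.q15_7) (q_cons (Vale.Agent.P032.Lt.q R0Q001.q15_8) (q_cons (Vale.Agent.P032.Lt.q R0Q001.q15_9) (q_cons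 (Vale.Agent.P032.Lt.q R0Q001.q15_10) (q_cons (Vale.Agent.P032.Lt.q R0Q001.q15_11) (q_cons (Vale.Agent.P032.Lt.q R0Q001.q15_12) (q_cons (Vale.Agent.P032.Lt.q R0Q001.q15_13) (q_cons (Vale.Agent.P032.Lt.q R0Q001.q15_14) (q_cons (Vale.Agent.P032.Lt.q R0Q001.q15_15) q_nil))))))))))))))))

theorem p16 : Pat 73 73 TBm TCm E R0Q001.P16 R0Q001.I16 := pat_step (by decide +kernel) (q_cons (Vale.Agent.P032.Lt.q R0Q001.q16_0) (q_cons (Vale.Agent.P032.Lt.q R0Q001.q16_1) (q_cons (Vale.Agent.P032.Lt.q R0Q001.q16_2) q_nil)))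

theorem p17 : Pat 73 73 TBm TCm E R0Q001.P17 R0Q001.I17 := pat_step (by decide +kernel) (q_cons (Vale.Agent.P032.Lt.q R0Q001.q17_0) (q_cons (Vale.Agent.P032.Lt.q R0Q001.q17_1) q_nil))

theorem p18 : Pat 73 73 TBm TCm E R0Q001.P18 R0Q001.I18 := pat_step (by decide +kernel) (q_cons (Vale.Agent.P032.Lt.q R0Q001.q18_0) (q_cons (Vale.Agent.P032.Lt.q R0Q001.q18_1) q_nil))

theorem p19 : Pat 73 73 TBm TCm E R0Q001.P19 R0Q001.I19 := pat_step (by decide +kernel) (q_cons (Vale.Agent.P032.Lt.q R0Q001.q19_0) (q_cons (Vale.Agent.P032.Lt.q R0Q001.q19_1) (q_cons (Vale.Agent.P032.Lt.q R0Q001.q19_2) q_nil)))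

theorem p20 : Pat 73 73 TBm TCm E R0Q001.P20 R0Q001.I20 := pat_step (by decide +kernel) (q_cons (Vale.Agent.P032.Lt.q R0Q001.q20_0) (q_cons (Vale.Agent.P032.Lt.q R0Q001.q20_1) (q_cons (Vale.Agent.P032.Lt.q R0Q001.q20_2) (q_cons (Vale.Agent.P032.Lt.q R0Q001.q20_3) (q_cons (Vale.Agent.P032.Lt.q R0Q001.q20_4) (q_cons (Vale.Agent.P032.Lt.q R0Q001.q20_5) (q_cons (Vale.Agent.P032.Lt.q R0Q001.q20_6) (q_cons (Vale.Agent.P032.Lt.q R0Q001.q20_7) (q_cons (Vale.Agent.P032.Lt.q R0Q001.q20_8) (q_cons (Vale.Agent.P032.Lt.q R0Q001.q20_9) (q_cons (Vale.Agent.P032.Lt.q R0Q001.q20_10) q_nil)))))))))))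

theorem p21 : Pat 73 73 TBm TCm E R0Q002.P21 R0Q002.I21 := pat_step (by decide +kernel) (q_cons (Vale.Agent.P032.Lt.q R0Q002.q21_0) (q_cons (Vale.Agent.P032.Lt.q R0Q002.q21_1) q_nil))

theorem p22 : Pat 73 73 TBm TCm E R0Q002.P22 R0Q002.I22 := pat_step (by decide +kernel) (q_cons (Vale.Agent.P032.Lt.q R0Q002.q22_0) (q_cons (Vale.Agent.P032.Lt.q R0Q002.q22_1) (q_cons (Vale.Agent.P032.Lt.q R0Q002.q22_2) (q_cons (Vale.Agent.P032.Lt.q R0Q002.q22_3) (q_cons (Vale.Agent.P032.Lt.q R0Q002.q22_4) (q_cons (Vale.Agent.P032.Lt.q R0Q002.q22_5) (q_cons (Vale.Agent.P032.Lt.q R0Q002.q22_6) q_nil)))))))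

theorem p23 : Pat 73 73 TBm TCm E R0Q002.P23 R0Q002.I23 := pat_step (by decide +kernel) (q_cons (Vale.Agent.P032.Lt.q R0Q002.q23_0) (q_cons (Vale.Agent.P032.Lt.q R0Q002.q23_1) q_nil))

theorem p24 : Pat 73 73 TBm TCm E R0Q002.P24 R0Q002.I24 := pat_step (by decide +kernel) (q_cons (Vale.Agent.P032.Lt.q R0Q002.q24_0) q_nil)

theorem p25 : Pat 73 73 TBm TCm E R0Q002.P25 R0Q002.I25 := pat_step (by decide +kernel) (q_cons (Vale.Agent.P032.Lt.q R0Q002.q25_0) (q_cons (Vale.Agent.P032.Lt.q R0Q002.q25_1) q_nil))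

theorem p26 : Pat 73 73 TBm TCm E R0Q002.P26 R0Q002.I26 := pat_step (by decide +kernel) (q_cons (Vale.Agent.P032.Lt.q R0Q002.q26_0) (q_cons (Vale.Agent.P032.Lt.q R0Q002.q26_1) q_nil))

theorem p27 : Pat 73 73 TBm TCm E R0Q002.P27 R0Q002.I27 := pat_step (by decide +kernel) (q_cons (Vale.Agent.P032.Lt.q R0Q002.q27_0) q_nil)

theorem p28 : Pat 73 73 TBm TCm E R0Q002.P28 R0Q002.I28 := pat_step (by decide +kernel) (q_cons (Vale.Agent.P032.Lt.q R0Q002.q28_0) q_nil)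

theorem p29 : Pat 73 73 TBm TCm E R0Q002.P29 R0Q002.I29 := pat_step (by decide +kernel) (q_cons (Vale.Agent.P032.Lt.q R0Q002.q29_0) q_nil)

theorem p30 : Pat 73 73 TBm TCm E R0Q002.P30 R0Q002.I30 := pat_step (by decide +kernel) (q_cons (Vale.Agent.P032.Lt.q R0Q002.q30_0) q_nil)

theorem p31 : Pat 73 73 TBm TCm E R0Q002.P31 R0Q002.I31 := pat_step (by decide +kernel) (q_cons (Vale.Agent.P032.Lt.q R0Q002.q31_0) q_nil)

theorem p32 : Pat 73 73 TBm TCm E R0Q002.P32 R0Q002.I32 := pat_step (by decide +kernel) (q_cons (Vale.Agent.P032.Lt.q R0Q002.q32_0) q_nil)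

theorem p33 : Pat 73 73 TBm TCm E R0Q002.P33 R0Q002.I33 := pat_step (by decide +kernel) (q_cons (Vale.Agent.P032.Lt.q R0Q002.q33_0) q_nil)

theorem p34 : Pat 73 73 TBm TCm E R0Q002.P34 R0Q002.I34 := pat_step (by decide +kernel) (q_cons (Vale.Agent.P032.Lt.q R0Q002.q34_0) q_nil)

theorem p35 : Pat 73 73 TBm TCm E R0Q002.P35 R0Q002.I35 := pat_step (by decide +kernel) (q_cons (Vale.Agent.P032.Lt.q R0Q002.q35_0) q_nil)

theorem p36 : Pat 73 73 TBm TCm E R0Q002.P36 R0Q002.I36 := pat_step (by decide +kernel) (q_cons (Vale.Agent.P032.Lt.q R0Q002.q36_0) q_nil)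

theorem p37 : Pat 73 73 TBm TCm E R0Q002.P37 R0Q002.I37 := pat_step (by decide +kernel) (q_cons (Vale.Agent.P032.Lt.q R0Q002.q37_0) (q_cons (Vale.Agent.P032.Lt.q R0Q002.q37_1) (q_cons (Vale.Agent.P032.Lt.q R0Q002.q37_2) q_nil)))

theorem p38 : Pat 73 73 TBm TCm E R0Q002.P38 R0Q002.I38 := pat_step (by decide +kernel) (q_cons (Vale.Agent.P032.Lt.q R0Q002.q38_0) (q_cons (Vale.Agent.P032.Lt.q R0Q002.q38_1) (q_cons (Vale.Agent.P032.Lt.q R0Q002.q38_2) (q_cons (Vale.Agent.P032.Lt.q R0Q002.q38_3) (q_cons (Vale.Agent.P032.Lt.q R0Q002.q38_4) (q_cons (Vale.Agent.P032.Lt.q R0Q002.q38_5) (q_cons (Vale.Agent.P032.Lt.q R0Q002.q38_6) q_nil)))))))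

theorem p39 : Pat 73 73 TBm TCm E R0Q002.P39 R0Q002.I39 := pat_step (by decide +kernel) (q_cons (Vale.Agent.P032.Lt.q R0Q002.q39_0) q_nil)

theorem p40 : Pat 73 73 TBm TCm E R0Q003.P40 R0Q003.I40 := pat_step (by decide +kernel) (q_cons (Vale.Agent.P032.Lt.q R0Q003.q40_0) (q_cons (Vale.Agent.P032.Lt.q R0Q003.q40_1) (q_cons (Vale.Agent.P032.Lt.q R0Q003.q40_2) (q_cons (Vale.Agent.P032.Lt.q R0Q003.q40_3) (q_cons (Vale.Agent.P032.Lt.q R0Q003.q40_4) (q_cons (Vale.Agent.P032.Lt.q R0Q003.q40_5) (q_cons (Vale.Agent.P032.Lt.q R0Q003.q40_6) (q_cons (Vale.Agent.P032.Lt.q R0Q003.q40_7) (q_cons (Vale.Agent.P032.Lt.q R0Q003.q40_8) (q_cons (Vale.Agent.P032.Lt.q R0Q003.q40_9) q_nil))))))))))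

theorem p41 : Pat 73 73 TBm TCm E R0Q003.P41 R0Q003.I41 := pat_step (by decide +kernel) (q_cons (Vale.Agent.P032.Lt.q R0Q003.q41_0) (q_cons (Vale.Agent.P032.Lt.q R0Q003.q41_1) (q_cons (Vale.Agent.P032.Lt.q R0Q003.q41_2) (q_cons (Vale.Agent.P032.Lt.q R0Q003.q41_3) (q_cons (Vale.Agent.P032.Lt.q R0Q003.q41_4) (q_cons (Vale.Agent.P032.Lt.q R0Q003.q41_5) (q_cons (Vale.Agent.P032.Lt.q R0Q003.q41_6) (q_cons (Vale.Agent.P032.Lt.q R0Q003.q41_7) (q_cons (Vale.Agent.P032.Lt.q R0Q003.q41_8) (q_cons (Vale.Agent.P032.Lt.q R0Q003.q41_9) (q_cons (Vale.Agent.P032.Lt.q R0Q003.q41_10) (q_cons (Vale.Agent.P032.Lt.q R0Q003.q41_11) q_nil))))))))))))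

theorem p42 : Pat 73 73 TBm TCm E R0Q003.P42 R0Q003.I42 := pat_step (by decide +kernel) (q_cons (Vale.Agent.P032.Lt.q R0Q003.q42_0) (q_cons (Vale.Agent.P032.Lt.q R0Q003.q42_1) (q_cons (Vale.Agent.P032.Lt.q R0Q003.q42_2) q_nil)))

theorem p43 : Pat 73 73 TBm TCm E R0Q003.P43 R0Q003.I43 := pat_step (by decide +kernel) (q_cons (Vale.Agent.P032.Lt.q R0Q003.q43_0) (q_cons (Vale.Agent.P032.Lt.q R0Q003.q43_1) q_nil))

theorem p44 : Pat 73 73 TBm TCm E R0Q003.P44 R0Q003.I44 := pat_step (by decide +kernel) (q_cons (Vale.Agent.P032.Lt.q R0Q003.q44_0) (q_cons (Vale.Agent.P032.Lt.q R0Q003.q44_1) (q_cons (Vale.Agent.P032.Lt.q R0Q003.q44_2) (q_cons (Vale.Agent.P032.Lt.q R0Q003.q44_3) q_nil))))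

theorem p45 : Pat 73 73 TBm TCm E R0Q003.P45 R0Q003.I45 := pat_step (by decide +kernel) (q_cons (Vale.Agent.P032.Lt.q R0Q003.q45_0) (q_cons (Vale.Agent.P032.Lt.q R0Q003.q45_1) (q_cons (Vale.Agent.P032.Lt.q R0Q003.q45_2) (q_cons (Vale.Agent.P032.Lt.q R0Q003.q45_3) (q_cons (Vale.Agent.P032.Lt.q R0Q003.q45_4) q_nil)))))

theorem p46 : Pat 73 73 TBm TCm E R0Q003.P46 R0Q003.I46 := pat_step (by decide +kernel) (q_cons (Vale.Agent.P032.Lt.q R0Q003.q46_0) (q_cons (Vale.Agent.P032.Lt.q R0Q003.q46_1) (q_cons (Vale.Agent.P032.Lt.q R0Q003.q46_2) (q_cons (Vale.Agent.P032.Lt.q R0Q003.q46_3) q_nil))))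

theorem p47 : Pat 73 73 TBm TCm E R0Q003.P47 R0Q003.I47 := pat_step (by decide +kernel) (q_cons (Vale.Agent.P032.Lt.q R0Q003.q47_0) (q_cons (Vale.Agent.P032.Lt.q R0Q003.q47_1) (q_cons (Vale.Agent.P032.Lt.q R0Q003.q47_2) (q_cons (Vale.Agent.P032.Lt.q R0Q003.q47_3) q_nil))))

theorem p48 : Pat 73 73 TBm TCm E R0Q003.P48 R0Q003.I48 := pat_step (by decide +kernel) (q_cons (Vale.Agent.P032.Lt.q R0Q003.q48_0) (q_cons (Vale.Agent.P032.Lt.q R0Q003.q48_1) (q_cons (Vale.Agent.P032.Lt.q R0Q003.q48_2) (q_cons (Vale.Agent.P032.Lt.q R0Q003.q48_3) (q_cons (Vale.Agent.P032.Lt.q R0Q003.q48_4) q_nil)))))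

theorem p49 : Pat 73 73 TBm TCm E R0Q004.P49 R0Q004.I49 := pat_step (by decide +kernel) (q_cons (Vale.Agent.P032.Lt.q R0Q004.q49_0) (q_cons (Vale.Agent.P032.Lt.q R0Q004.q49_1) (q_cons (Vale.Agent.P032.Lt.q R0Q004.q49_2) (q_cons (Vale.Agent.P032.Lt.q R0Q004.q49_3) q_nil))))

theorem p50 : Pat 73 73 TBm TCm E R0Q004.P50 R0Q004.I50 := pat_step (by decide +kernel) (q_cons (Vale.Agent.P032.Lt.q R0Q004.q50_0) (q_cons (Vale.Agent.P032.Lt.q R0Q004.q50_1) (q_cons (Vale.Agent.P032.Lt.q R0Q004.q50_2) (q_cons (Vale.Agent.P032.Lt.q R0Q004.q50_3) q_nil))))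

theorem p51 : Pat 73 73 TBm TCm E R0Q004.P51 R0Q004.I51 := pat_step (by decide +kernel) (q_cons (Vale.Agent.P032.Lt.q R0Q004.q51_0) (q_cons (Vale.Agent.P032.Lt.q R0Q004.q51_1) (q_cons (Vale.Agent.P032.Lt.q R0Q004.q51_2) (q_cons (Vale.Agent.P032.Lt.q R0Q004.q51_3) q_nil))))

theorem p52 : Pat 73 73 TBm TCm E R0Q004.P52 R0Q004.I52 := pat_step (by decide +kernel) (q_cons (Vale.Agent.P032.Lt.q R0Q004.q52_0) (q_cons (Vale.Agent.P032.Lt.q R0Q004.q52_1) (q_cons (Vale.Agent.P032.Lt.q R0Q004.q52_2) (q_cons (Vale.Agent.P032.Lt.q R0Q004.q52_3) q_nil))))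

theorem p53 : Pat 73 73 TBm TCm E R0Q004.P53 R0Q004.I53 := pat_step (by decide +kernel) (q_cons (Vale.Agent.P032.Lt.q R0Q004.q53_0) (q_cons (Vale.Agent.P032.Lt.q R0Q004.q53_1) (q_cons (Vale.Agent.P032.Lt.q R0Q004.q53_2) q_nil)))

theorem p54 : Pat 73 73 TBm TCm E R0Q004.P54 R0Q004.I54 := pat_step (by decide +kernel) (q_cons (Vale.Agent.P032.Lt.q R0Q004.q54_0) (q_cons (Vale.Agent.P032.Lt.q R0Q004.q54_1) (q_cons (Vale.Agent.P032.Lt.q R0Q004.q54_2) (q_cons (Vale.Agent.P032.Lt.q R0Q004.q54_3) (q_cons (Vale.Agent.P032.Lt.q R0Q004.q54_4) (q_cons (Vale.Agent.P032.Lt.q R0Q004.q54_5) (q_cons (Vale.Agent.P032.Lt.q R0Q004.q54_6) q_nil)))))))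

theorem p55 : Pat 73 73 TBm TCm E R0Q004.P55 R0Q004.I55 := pat_step (by decide +kernel) (q_cons (Vale.Agent.P032.Lt.q R0Q004.q55_0) (q_cons (Vale.Agent.P032.Lt.q R0Q004.q55_1) (q_cons (Vale.Agent.P032.Lt.q R0Q004.q55_2) (q_cons (Vale.Agent.P032.Lt.q R0Q004.q55_3) (q_cons (Vale.Agent.P032.Lt.q R0Q004.q55_4) (q_cons (Vale.Agent.P032.Lt.q R0Q004.q55_5) (q_cons (Vale.Agent.P032.Lt.q R0Q004.q55_6) (q_cons (Vale.Agent.P032.Lt.q R0Q004.q55_7) (q_cons (Vale.Agent.P032.Lt.q R0Q004.q55_8) (q_cons (Vale.Agent.P032.Lt.q R0Q004.q55_9) (q_cons (Vale.Agent.P032.Lt.q R0Q004.q55_10) (q_cons (Vale.Agent.P032.Lt.q R0Q004.q55_11) (q_cons (Vale.Agent.P032.Lt.q R0Q004.q55_12) (q_cons (Vale.Agent.P032.Lt.q R0Q004.q55_13) (q_cons (Vale.Agent.P032.Lt.q R0Q004.q55_14) q_nil)))))))))))))))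

theorem p56 : Pat 73 73 TBm TCm E R0Q004.P56 R0Q004.I56 := pat_step (by decide +kernel) (q_cons (Vale.Agent.P032.Lt.q R0Q004.q56_0) (q_cons (Vale.Agent.P032.Lt.q R0Q004.q56_1) (q_cons (Vale.Agent.P032.Lt.q R0Q004.q56_2) (q_cons (Vale.Agent.P032.Lt.q R0Q004.q56_3) (q_cons (Vale.Agent.P032.Lt.q R0Q004.q56_4) (q_cons (Vale.Agent.P032.Lt.q R0Q004.q56_5) (q_cons (Vale.Agent.P032.Lt.q R0Q004.q56_6) (q_cons (Vale.Agent.P032.Lt.q R0Q004.q56_7) (q_cons (Vale.Agent.P032.Lt.q R0Q004.q56_8) (q_cons (Vale.Agent.P032.Lt.q R0Q004.q56_9) q_nil))))))))))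

theorem p57 : Pat 73 73 TBm TCm E R0Q004.P57 R0Q004.I57 := pat_step (by decide +kernel) (q_cons (Vale.Agent.P032.Lt.q R0Q004.q57_0) q_nil)

theorem p58 : Pat 73 73 TBm TCm E R0Q004.P58 R0Q004.I58 := pat_step (by decide +kernel) (q_cons (Vale.Agent.P032.Lt.q R0Q004.q58_0) (q_cons (Vale.Agent.P032.Lt.q R0Q004.q58_1) (q_cons (Vale.Agent.P032.Lt.q R0Q004.q58_2) (q_cons (Vale.Agent.P032.Lt.q R0Q004.q58_3) (q_cons (Vale.Agent.P032.Lt.q R0Q004.q58_4) (q_cons (Vale.Agent.P032.Lt.q R0Q004.q58_5) (q_cons (Vale.Agent.P032.Lt.q R0Q004.q58_6) q_nil)))))))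

theorem p59 : Pat 73 73 TBm TCm E R0Q004.P59 R0Q004.I59 := pat_step (by decide +kernel) (q_cons (Vale.Agent.P032.Lt.q R0Q004.q59_0) q_nil)

theorem p60 : Pat 73 73 TBm TCm E R0Q004.P60 R0Q004.I60 := pat_step (by decide +kernel) (q_cons (Vale.Agent.P032.Lt.q R0Q004.q60_0) (q_cons (Vale.Agent.P032.Lt.q R0Q004.q60_1) (q_cons (Vale.Agent.P032.Lt.q R0Q004.q60_2) (q_cons (Vale.Agent.P032.Lt.q R0Q004.q60_3) (q_cons (Vale.Agent.P032.Lt.q R0Q004.q60_4) (q_cons (Vale.Agent.P032.Lt.q R0Q004.q60_5) (q_cons (Vale.Agent.P032.Lt.q R0Q004.q60_6) (q_cons (Vale.Agent.P032.Lt.q R0Q004.q60_7) (q_cons (Vale.Agent.P032.Lt.q R0Q004.q60_8) (q_cons (Vale.Agent.P032.Lt.q R0Q004.q60_9) (q_cons (Vale.Agent.P032.Lt.q R0Q004.q60_10) q_nil)))))))))))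

theorem p61 : Pat 73 73 TBm TCm E R0Q005.P61 R0Q005.I61 := pat_step (by decide +kernel) (q_cons (Vale.Agent.P032.Lt.q R0Q005.q61_0) (q_cons (Vale.Agent.P032.Lt.q R0Q005.q61_1) (q_cons (Vale.Agent.P032.Lt.q R0Q005.q61_2) (q_cons (Vale.Agent.P032.Lt.q R0Q005.q61_3) (q_cons (Vale.Agent.P032.Lt.q R0Q005.q61_4) (q_cons (Vale.Agent.P032.Lt.q R0Q005.q61_5) (q_cons (Vale.Agent.P032.Lt.q R0Q005.q61_6) (q_cons (Vale.Agent.P032.Lt.q R0Q005.q61_7) q_nil))))))))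

theorem p62 : Pat 73 73 TBm TCm E R0Q005.P62 R0Q005.I62 := pat_step (by decide +kernel) (q_cons (Vale.Agent.P032.Lt.q R0Q005.q62_0) (q_cons (Vale.Agent.P032.Lt.q R0Q005.q62_1) (q_cons (Vale.Agent.P032.Lt.q R0Q005.q62_2) (q_cons (Vale.Agent.P032.Lt.q R0Q005.q62_3) (q_cons (Vale.Agent.P032.Lt.q R0Q005.q62_4) (q_cons (Vale.Agent.P032.Lt.q R0Q005.q62_5) (q_cons (Vale.Agent.P032.Lt.q R0Q005.q62_6) (q_cons (Vale.Agent.P032.Lt.q R0Q005.q62_7) (q_cons (Vale.Agent.P032.Lt.q R0Q005.q62_8) q_nil)))))))))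

theorem p63 : Pat 73 73 TBm TCm E R0Q005.P63 R0Q005.I63 := pat_step (by decide +kernel) (q_cons (Vale.Agent.P032.Lt.q R0Q005.q63_0) (q_cons (Vale.Agent.P032.Lt.q R0Q005.q63_1) (q_cons (Vale.Agent.P032.Lt.q R0Q005.q63_2) (q_cons (Vale.Agent.P032.Lt.q R0Q005.q63_3) (q_cons (Vale.Agent.P032.Lt.q R0Q005.q63_4) (q_cons (Vale.Agent.P032.Lt.q R0Q005.q63_5) (q_cons (Vale.Agent.P032.Lt.q R0Q005.q63_6) (q_cons (Vale.Agent.P032.Lt.q R0Q005.q63_7) (q_cons (Vale.Agent.P032.Lt.q R0Q005.q63_8) q_nil)))))))))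

theorem p64 : Pat 73 73 TBm TCm E R0Q005.P64 R0Q005.I64 := pat_step (by decide +kernel) (q_cons (Vale.Agent.P032.Lt.q R0Q005.q64_0) (q_cons (Vale.Agent.P032.Lt.q R0Q005.q64_1) q_nil))

theorem p65 : Pat 73 73 TBm TCm E R0Q005.P65 R0Q005.I65 := pat_step (by decide +kernel) (q_cons (Vale.Agent.P032.Lt.q R0Q005.q65_0) (q_cons (Vale.Agent.P032.Lt.q R0Q005.q65_1) (q_cons (Vale.Agent.P032.Lt.q R0Q005.q65_2) (q_cons (Vale.Agent.P032.Lt.q R0Q005.q65_3) (q_cons (Vale.Agent.P032.Lt.q R0Q005.q65_4) (q_cons (Vale.Agent.P032.Lt.q R0Q005.q65_5) (q_cons (Vale.Agent.P032.Lt.q R0Q005.q65_6) (q_cons (Vale.Agent.P032.Lt.q R0Q005.q65_7) (q_cons (Vale.Agent.P032.Lt.q R0Q005.q65_8) (q_cons (Vale.Agent.P032.Lt.q R0Q005.q65_9) (q_cons (Vale.Agent.P032.Lt.q R0Q005.q65_10) (q_cons (Vale.Agent.P032.Lt.q R0Q005.q65_11) (q_cons (Vale.Agent.P032.Lt.q R0Q005.q65_12) q_nil)))))))))))))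

theorem p66 : Pat 73 73 TBm TCm E R0Q005.P66 R0Q005.I66 := pat_step (by decide +kernel) (q_cons (Vale.Agent.P032.Lt.q R0Q005.q66_0) (q_cons (Vale.Agent.P032.Lt.q R0Q005.q66_1) (q_cons (Vale.Agent.P032.Lt.q R0Q005.q66_2) (q_cons (Vale.Agent.P032.Lt.q R0Q005.q66_3) (q_cons (Vale.Agent.P032.Lt.q R0Q005.q66_4) q_nil)))))

theorem p67 : Pat 73 73 TBm TCm E R0Q005.P67 R0Q005.I67 := pat_step (by decide +kernel) (q_cons (Vale.Agent.P032.Lt.q R0Q005.q67_0) q_nil)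

theorem p68 : Pat 73 73 TBm TCm E R0Q005.P68 R0Q005.I68 := pat_step (by decide +kernel) (q_cons (Vale.Agent.P032.Lt.q R0Q005.q68_0) (q_cons (Vale.Agent.P032.Lt.q R0Q005.q68_1) q_nil))

theorem p69 : Pat 73 73 TBm TCm E R0Q005.P69 R0Q005.I69 := pat_step (by decide +kernel) (q_cons (Vale.Agent.P032.Lt.q R0Q005.q69_0) (q_cons (Vale.Agent.P032.Lt.q R0Q005.q69_1) (q_cons (Vale.Agent.P032.Lt.q R0Q005.q69_2) (q_cons (Vale.Agent.P032.Lt.q R0Q005.q69_3) (q_cons (Vale.Agent.P032.Lt.q R0Q005.q69_4) (q_cons (Vale.Agent.P032.Lt.q R0Q005.q69_5) (q_cons (Vale.Agent.P032.Lt.q R0Q005.q69_6) (q_cons (Vale.Agent.P032.Lt.q R0Q005.q69_7) (q_cons (Vale.Agent.P032.Lt.q R0Q005.q69_8) (q_cons (Vale.Agent.P032.Lt.q R0Q005.q69_9) q_nil))))))))))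

theorem p70 : Pat 73 73 TBm TCm E R0Q005.P70 R0Q005.I70 := pat_step (by decide +kernel) (q_cons (Vale.Agent.P032.Lt.q R0Q005.q70_0) (q_cons (Vale.Agent.P032.Lt.q R0Q005.q70_1) (q_cons (Vale.Agent.P032.Lt.q R0Q005.q70_2) q_nil)))

theorem p71 : Pat 73 73 TBm TCm E R0Q005.P71 R0Q005.I71 := pat_step (by decide +kernel) (q_cons (Vale.Agent.P032.Lt.q R0Q005.q71_0) (q_cons (Vale.Agent.P032.Lt.q R0Q005.q71_1) (q_cons (Vale.Agent.P032.Lt.q R0Q005.q71_2) (q_cons (Vale.Agent.P032.Lt.q R0Q005.q71_3) (q_cons (Vale.Agent.P032.Lt.q R0Q005.q71_4) (q_cons (Vale.Agent.P032.Lt.q R0Q005.q71_5) (q_cons (Vale.Agent.P032.Lt.q R0Q005.q71_6) (q_cons (Vale.Agent.P032.Lt.q R0Q005.q71_7) (q_cons (Vale.Agent.P032.Lt.q R0Q005.q71_8) q_nil)))))))))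

theorem p72 : Pat 73 73 TBm TCm E R0Q005.P72 R0Q005.I72 := pat_step (by decide +kernel) (q_cons (Vale.Agent.P032.Lt.q R0Q005.q72_0) (q_cons (Vale.Agent.P032.Lt.q R0Q005.q72_1) (q_cons (Vale.Agent.P032.Lt.q R0Q005.q72_2) (q_cons (Vale.Agent.P032.Lt.q R0Q005.q72_3) (q_cons (Vale.Agent.P032.Lt.q R0Q005.q72_4) (q_cons (Vale.Agent.P032.Lt.q R0Q005.q72_5) (q_cons (Vale.Agent.P032.Lt.q R0Q005.q72_6) q_nil)))))))

theorem p73 : Pat 73 73 TBm TCm E R0Q005.P73 R0Q005.I73 := pat_step (by decide +kernel) (q_cons (Vale.Agent.P032.Lt.q R0Q005.q73_0) (q_cons (Vale.Agent.P032.Lt.q R0Q005.q73_1) (q_cons (Vale.Agent.P032.Lt.q R0Q005.q73_2) (q_cons (Vale.Agent.P032.Lt.q R0Q005.q73_3) q_nil))))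

theorem p74 : Pat 73 73 TBm TCm E R0Q006.P74 R0Q006.I74 := pat_step (by decide +kernel) (q_cons (Vale.Agent.P032.Lt.q R0Q006.q74_0) (q_cons (Vale.Agent.P032.Lt.q R0Q006.q74_1) (q_cons (Vale.Agent.P032.Lt.q R0Q006.q74_2) (q_cons (Vale.Agent.P032.Lt.q R0Q006.q74_3) (q_cons (Vale.Agent.P032.Lt.q R0Q006.q74_4) (q_cons (Vale.Agent.P032.Lt.q R0Q006.q74_5) (q_cons (Vale.Agent.P032.Lt.q R0Q006.q74_6) (q_cons (Vale.Agent.P032.Lt.q R0Q006.q74_7) (q_cons (Vale.Agent.P032.Lt.q R0Q006.q74_8) q_nil)))))))))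

theorem p75 : Pat 73 73 TBm TCm E R0Q006.P75 R0Q006.I75 := pat_step (by decide +kernel) (q_cons (Vale.Agent.P032.Lt.q R0Q006.q75_0) (q_cons (Vale.Agent.P032.Lt.q R0Q006.q75_1) q_nil))

theorem p76 : Pat 73 73 TBm TCm E R0Q006.P76 R0Q006.I76 := pat_step (by decide +kernel) (q_cons (Vale.Agent.P032.Lt.q R0Q006.q76_0) (q_cons (Vale.Agent.P032.Lt.q R0Q006.q76_1) (q_cons (Vale.Agent.P032.Lt.q R0Q006.q76_2) (q_cons (Vale.Agent.P032.Lt.q R0Q006.q76_3) (q_cons (Vale.Agent.P032.Lt.q R0Q006.q76_4) (q_cons (Vale.Agent.P032.Lt.q R0Q006.q76_5) (q_cons (Vale.Agent.P032.Lt.q R0Q006.q76_6) (q_cons (Vale.Agent.P032.Lt.q R0Q006.q76_7) (q_cons (Vale.Agent.P032.Lt.q R0Q006.q76_8) (q_cons (Vale.Agent.P032.Lt.q R0Q006.q76_9) (q_cons (Vale.Agent.P032.Lt.q R0Q006.q76_10) (q_cons (Vale.Agent.P032.Lt.q R0Q006.q76_11) (q_cons (Vale.Agent.P032.Lt.q R0Q006.q76_12) (q_cons (Vale.Agent.P032.Lt.q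 R0Q006.q76_13) q_nil))))))))))))))

theorem p77 : Pat 73 73 TBm TCm E R0Q006.P77 R0Q006.I77 := pat_step (by decide +kernel) (q_cons (Vale.Agent.P032.Lt.q R0Q006.q77_0) (q_cons (Vale.Agent.P032.Lt.q R0Q006.q77_1) (q_cons (Vale.Agent.P032.Lt.q R0Q006.q77_2) (q_cons (Vale.Agent.P032.Lt.q R0Q006.q77_3) q_nil))))

theorem p78 : Pat 73 73 TBm TCm E R0Q006.P78 R0Q006.I78 := pat_step (by decide +kernel) (q_cons (Vale.Agent.P032.Lt.q R0Q006.q78_0) (q_cons (Vale.Agent.P032.Lt.q R0Q006.q78_1) (q_cons (Vale.Agent.P032.Lt.q R0Q006.q78_2) (q_cons (Vale.Agent.P032.Lt.q R0Q006.q78_3) (q_cons (Vale.Agent.P032.Lt.q R0Q006.q78_4) (q_cons (Vale.Agent.P032.Lt.q R0Q006.q78_5) (q_cons (Vale.Agent.P032.Lt.q R0Q006.q78_6) (q_cons (Vale.Agent.P032.Lt.q R0Q006.q78_7) (q_cons (Vale.Agent.P032.Lt.q R0Q006.q78_8) (q_cons (Vale.Agent.P032.Lt.q R0Q006.q78_9) (q_cons (Vale.Agent.P032.Lt.q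 R0Q006.q78_10) q_nil)))))))))))

theorem p79 : Pat 73 73 TBm TCm E R0Q006.P79 R0Q006.I79 := pat_step (by decide +kernel) (q_cons (Vale.Agent.P032.Lt.q R0Q006.q79_0) (q_cons (Vale.Agent.P032.Lt.q R0Q006.q79_1) (q_cons (Vale.Agent.P032.Lt.q R0Q006.q79_2) q_nil)))

theorem p80 : Pat 73 73 TBm TCm E R0Q006.P80 R0Q006.I80 := pat_step (by decide +kernel) (q_cons (Vale.Agent.P032.Lt.q R0Q006.q80_0) (q_cons (Vale.Agent.P032.Lt.q R0Q006.q80_1) (q_cons (Vale.Agent.P032.Lt.q R0Q006.q80_2) (q_cons (Vale.Agent.P032.Lt.q R0Q006.q80_3) q_nil))))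

theorem p81 : Pat 73 73 TBm TCm E R0Q006.P81 R0Q006.I81 := pat_step (by decide +kernel) (q_cons (Vale.Agent.P032.Lt.q R0Q006.q81_0) (q_cons (Vale.Agent.P032.Lt.q R0Q006.q81_1) (q_cons (Vale.Agent.P032.Lt.q R0Q006.q81_2) (q_cons (Vale.Agent.P032.Lt.q R0Q006.q81_3) (q_cons (Vale.Agent.P032.Lt.q R0Q006.q81_4) (q_cons (Vale.Agent.P032.Lt.q R0Q006.q81_5) q_nil))))))

theorem p82 : Pat 73 73 TBm TCm E R0Q006.P82 R0Q006.I82 := pat_step (by decide +kernel) (q_cons (Vale.Agent.P032.Lt.q R0Q006.q82_0) (q_cons (Vale.Agent.P032.Lt.q R0Q006.q82_1) q_nil))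

theorem p83 : Pat 73 73 TBm TCm E R0Q006.P83 R0Q006.I83 := pat_step (by decide +kernel) (q_cons (Vale.Agent.P032.Lt.q R0Q006.q83_0) (q_cons (Vale.Agent.P032.Lt.q R0Q006.q83_1) q_nil))

theorem p84 : Pat 73 73 TBm TCm E R0Q006.P84 R0Q006.I84 := pat_step (by decide +kernel) (q_cons (Vale.Agent.P032.Lt.q R0Q006.q84_0) (q_cons (Vale.Agent.P032.Lt.q R0Q006.q84_1) (q_cons (Vale.Agent.P032.Lt.q R0Q006.q84_2) (q_cons (Vale.Agent.P032.Lt.q R0Q006.q84_3) (q_cons (Vale.Agent.P032.Lt.q R0Q006.q84_4) (q_cons (Vale.Agent.P032.Lt.q R0Q006.q84_5) (q_cons (Vale.Agent.P032.Lt.q R0Q006.q84_6) (q_cons (Vale.Agent.P032.Lt.q R0Q006.q84_7) (q_cons (Vale.Agent.P032.Lt.q R0Q006.q84_8) (q_cons (Vale.Agent.P032.Lt.q R0Q006.q84_9) (q_cons (Vale.Agent.P032.Lt.q R0Q006.q84_10) q_nil)))))))))))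

theorem p85 : Pat 73 73 TBm TCm E R0Q006.P85 R0Q006.I85 := pat_step (by decide +kernel) (q_cons (Vale.Agent.P032.Lt.q R0Q006.q85_0) (q_cons (Vale.Agent.P032.Lt.q R0Q006.q85_1) (q_cons (Vale.Agent.P032.Lt.q R0Q006.q85_2) (q_cons (Vale.Agent.P032.Lt.q R0Q006.q85_3) (q_cons (Vale.Agent.P032.Lt.q R0Q006.q85_4) q_nil)))))

theorem p86 : Pat 73 73 TBm TCm E R0Q006.P86 R0Q006.I86 := pat_step (by decide +kernel) (q_cons (Vale.Agent.P032.Lt.q R0Q006.q86_0) (q_cons (Vale.Agent.P032.Lt.q R0Q006.q86_1) (q_cons (Vale.Agent.P032.Lt.q R0Q006.q86_2) (q_cons (Vale.Agent.P032.Lt.q R0Q006.q86_3) (q_cons (Vale.Agent.P032.Lt.q R0Q006.q86_4) (q_cons (Vale.Agent.P032.Lt.q R0Q006.q86_5) (q_cons (Vale.Agent.P032.Lt.q R0Q006.q86_6) (q_cons (Vale.Agent.P032.Lt.q R0Q006.q86_7) (q_cons (Vale.Agent.P032.Lt.q R0Q006.q86_8) (q_cons (Vale.Agent.P032.Lt.q R0Q006.q86_9) (q_cons (Vale.Agent.P032.Lt.q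 R0Q006.q86_10) (q_cons (Vale.Agent.P032.Lt.q R0Q006.q86_11) (q_cons (Vale.Agent.P032.Lt.q R0Q006.q86_12) q_nil)))))))))))))

theorem p87 : Pat 73 73 TBm TCm E R0Q006.P87 R0Q006.I87 := pat_step (by decide +kernel) (q_cons (Vale.Agent.P032.Lt.q R0Q006.q87_0) q_nil)

theorem p88 : Pat 73 73 TBm TCm E R0Q006.P88 R0Q006.I88 := pat_step (by decide +kernel) (q_cons (Vale.Agent.P032.Lt.q R0Q006.q88_0) q_nil)

theorem p89 : Pat 73 73 TBm TCm E R0Q006.P89 R0Q006.I89 := pat_step (by decide +kernel) (q_cons (Vale.Agent.P032.Lt.q R0Q006.q89_0) q_nil)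

theorem p90 : Pat 73 73 TBm TCm E R0Q007.P90 R0Q007.I90 := pat_step (by decide +kernel) (q_cons (Vale.Agent.P032.Lt.q R0Q007.q90_0) (q_cons (Vale.Agent.P032.Lt.q R0Q007.q90_1) (q_cons (Vale.Agent.P032.Lt.q R0Q007.q90_2) (q_cons (Vale.Agent.P032.Lt.q R0Q007.q90_3) (q_cons (Vale.Agent.P032.Lt.q R0Q007.q90_4) (q_cons (Vale.Agent.P032.Lt.q R0Q007.q90_5) (q_cons (Vale.Agent.P032.Lt.q R0Q007.q90_6) (q_cons (Vale.Agent.P032.Lt.q R0Q007.q90_7) (q_cons (Vale.Agent.P032.Lt.q R0Q007.q90_8) (q_cons (Vale.Agent.P032.Lt.q R0Q007.q90_9) (q_cons (Vale.Agent.P032.Lt.q R0Q007.q90_10) (q_cons (Vale.Agent.P032.Lt.q R0Q007.q90_11) (q_cons (Vale.Agent.P032.Lt.q R0Q007.q90_12) (q_cons (Vale.Agent.P032.Lt.q R0Q007.q90_13) (q_cons (Vale.Agent.P032.Lt.q R0Q007.q90_14) (q_cons (Vale.Agent.P032.Lt.q R0Q007.q90_15) (q_cons (Vale.Agent.P032.Lt.q R0Q007.q90_16) (q_cons (Vale.Agent.P032.Lt.q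 R0Q007.q90_17) (q_cons (Vale.Agent.P032.Lt.q R0Q007.q90_18) (q_cons (Vale.Agent.P032.Lt.q R0Q007.q90_19) (q_cons (Vale.Agent.P032.Lt.q R0Q007.q90_20) (q_cons (Vale.Agent.P032.Lt.q R0Q007.q90_21) (q_cons (Vale.Agent.P032.Lt.q R0Q007.q90_22) (q_cons (Vale.Agent.P032.Lt.q R0Q007.q90_23) (q_cons (Vale.Agent.P032.Lt.q R0Q007.q90_24) (q_cons (Vale.Agent.P032.Lt.q R0Q007.q90_25) (q_cons (Vale.Agent.P032.Lt.q R0Q007.q90_26) (q_cons (Vale.Agent.P032.Lt.q R0Q007.q90_27) (q_cons (Vale.Agent.P032.Lt.q R0Q007.q90_28) (q_cons (Vale.Agent.P032.Lt.q R0Q007.q90_29) (q_cons (Vale.Agent.P032.Lt.q R0Q007.q90_30) (q_cons (Vale.Agent.P032.Lt.q R0Q007.q90_31) (q_cons (Vale.Agent.P032.Lt.q R0Q007.q90_32) (q_cons (Vale.Agent.P032.Lt.q R0Q007.q90_33) q_nil))))))))))))))))))))))))))))))))))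

theorem p91 : Pat 73 73 TBm TCm E R0Q007.P91 R0Q007.I91 := pat_step (by decide +kernel) (q_cons (Vale.Agent.P032.Lt.q R0Q007.q91_0) q_nil)

theorem p92 : Pat 73 73 TBm TCm E R0Q007.P92 R0Q007.I92 := pat_step (by decide +kernel) (q_cons (Vale.Agent.P032.Lt.q R0Q007.q92_0) (q_cons (Vale.Agent.P032.Lt.q R0Q007.q92_1) (q_cons (Vale.Agent.P032.Lt.q R0Q007.q92_2) q_nil)))

theorem p93 : Pat 73 73 TBm TCm E R0Q007.P93 R0Q007.I93 := pat_step (by decide +kernel) (q_cons (Vale.Agent.P032.Lt.q R0Q007.q93_0) q_nil)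

theorem p94 : Pat 73 73 TBm TCm E R0Q007.P94 R0Q007.I94 := pat_step (by decide +kernel) (q_cons (Vale.Agent.P032.Lt.q R0Q007.q94_0) (q_cons (Vale.Agent.P032.Lt.q R0Q007.q94_1) (q_cons (Vale.Agent.P032.Lt.q R0Q007.q94_2) (q_cons (Vale.Agent.P032.Lt.q R0Q007.q94_3) (q_cons (Vale.Agent.P032.Lt.q R0Q007.q94_4) (q_cons (Vale.Agent.P032.Lt.q R0Q007.q94_5) q_nil))))))

theorem p95 : Pat 73 73 TBm TCm E R0Q007.P95 R0Q007.I95 := pat_step (by decide +kernel) (q_cons (Vale.Agent.P032.Lt.q R0Q007.q95_0) q_nil)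

theorem p96 : Pat 73 73 TBm TCm E R0Q007.P96 R0Q007.I96 := pat_step (by decide +kernel) (q_cons (Vale.Agent.P032.Lt.q R0Q007.q96_0) (q_cons (Vale.Agent.P032.Lt.q R0Q007.q96_1) (q_cons (Vale.Agent.P032.Lt.q R0Q007.q96_2) (q_cons (Vale.Agent.P032.Lt.q R0Q007.q96_3) (q_cons (Vale.Agent.P032.Lt.q R0Q007.q96_4) (q_cons (Vale.Agent.P032.Lt.q R0Q007.q96_5) (q_cons (Vale.Agent.P032.Lt.q R0Q007.q96_6) (q_cons (Vale.Agent.P032.Lt.q R0Q007.q96_7) q_nil))))))))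

theorem p97 : Pat 73 73 TBm TCm E R0Q007.P97 R0Q007.I97 := pat_step (by decide +kernel) (q_cons (Vale.Agent.P032.Lt.q R0Q007.q97_0) (q_cons (Vale.Agent.P032.Lt.q R0Q007.q97_1) (q_cons (Vale.Agent.P032.Lt.q R0Q007.q97_2) (q_cons (Vale.Agent.P032.Lt.q R0Q007.q97_3) (q_cons (Vale.Agent.P032.Lt.q R0Q007.q97_4) q_nil)))))

theorem p98 : Pat 73 73 TBm TCm E R0Q007.P98 R0Q007.I98 := pat_step (by decide +kernel) (q_cons (Vale.Agent.P032.Lt.q R0Q007.q98_0) (q_cons (Vale.Agent.P032.Lt.q R0Q007.q98_1) q_nil))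

theorem p99 : Pat 73 73 TBm TCm E R0Q007.P99 R0Q007.I99 := pat_step (by decide +kernel) (q_cons (Vale.Agent.P032.Lt.q R0Q007.q99_0) (q_cons (Vale.Agent.P032.Lt.q R0Q007.q99_1) q_nil))

theorem p100 : Pat 73 73 TBm TCm E R0Q007.P100 R0Q007.I100 := pat_step (by decide +kernel) (q_cons (Vale.Agent.P032.Lt.q R0Q007.q100_0) (q_cons (Vale.Agent.P032.Lt.q R0Q007.q100_1) q_nil))

theorem p101 : Pat 73 73 TBm TCm E R0Q007.P101 R0Q007.I101 := pat_step (by decide +kernel) (q_cons (Vale.Agent.P032.Lt.q R0Q007.q101_0) (q_cons (Vale.Agent.P032.Lt.q R0Q007.q101_1) q_nil))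

theorem p102 : Pat 73 73 TBm TCm E R0Q007.P102 R0Q007.I102 := pat_step (by decide +kernel) (q_cons (Vale.Agent.P032.Lt.q R0Q007.q102_0) (q_cons (Vale.Agent.P032.Lt.q R0Q007.q102_1) q_nil))

theorem p103 : Pat 73 73 TBm TCm E R0Q007.P103 R0Q007.I103 := pat_step (by decide +kernel) (q_cons (Vale.Agent.P032.Lt.q R0Q007.q103_0) (q_cons (Vale.Agent.P032.Lt.q R0Q007.q103_1) (q_cons (Vale.Agent.P032.Lt.q R0Q007.q103_2) (q_cons (Vale.Agent.P032.Lt.q R0Q007.q103_3) q_nil))))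

theorem p104 : Pat 73 73 TBm TCm E R0Q007.P104 R0Q007.I104 := pat_step (by decide +kernel) (q_cons (Vale.Agent.P032.Lt.q R0Q007.q104_0) q_nil)

theorem p105 : Pat 73 73 TBm TCm E R0Q008.P105 R0Q008.I105 := pat_step (by decide +kernel) (q_cons (Vale.Agent.P032.Lt.q R0Q008.q105_0) q_nil)

theorem p106 : Pat 73 73 TBm TCm E R0Q008.P106 R0Q008.I106 := pat_step (by decide +kernel) (q_cons (Vale.Agent.P032.Lt.q R0Q008.q106_0) (q_cons (Vale.Agent.P032.Lt.q R0Q008.q106_1) (q_cons (Vale.Agent.P032.Lt.q R0Q008.q106_2) (q_cons (Vale.Agent.P032.Lt.q R0Q008.q106_3) (q_cons (Vale.Agent.P032.Lt.q R0Q008.q106_4) (q_cons (Vale.Agent.P032.Lt.q R0Q008.q106_5) (q_cons (Vale.Agent.P032.Lt.q R0Q008.q106_6) (q_cons (Vale.Agent.P032.Lt.q R0Q008.q106_7) (q_cons (Vale.Agent.P032.Lt.q R0Q008.q106_8) (q_cons (Vale.Agent.P032.Lt.q R0Q008.q106_9) (q_cons (Vale.Agent.P032.Lt.q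 R0Q008.q106_10) q_nil)))))))))))

theorem p107 : Pat 73 73 TBm TCm E R0Q008.P107 R0Q008.I107 := pat_step (by decide +kernel) (q_cons (Vale.Agent.P032.Lt.q R0Q008.q107_0) q_nil)

theorem p108 : Pat 73 73 TBm TCm E R0Q008.P108 R0Q008.I108 := pat_step (by decide +kernel) (q_cons (Vale.Agent.P032.Lt.q R0Q008.q108_0) (q_cons (Vale.Agent.P032.Lt.q R0Q008.q108_1) (q_cons (Vale.Agent.P032.Lt.q R0Q008.q108_2) (q_cons (Vale.Agent.P032.Lt.q R0Q008.q108_3) q_nil))))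

theorem p109 : Pat 73 73 TBm TCm E R0Q008.P109 R0Q008.I109 := pat_step (by decide +kernel) (q_cons (Vale.Agent.P032.Lt.q R0Q008.q109_0) (q_cons (Vale.Agent.P032.Lt.q R0Q008.q109_1) (q_cons (Vale.Agent.P032.Lt.q R0Q008.q109_2) (q_cons (Vale.Agent.P032.Lt.q R0Q008.q109_3) (q_cons (Vale.Agent.P032.Lt.q R0Q008.q109_4) (q_cons (Vale.Agent.P032.Lt.q R0Q008.q109_5) (q_cons (Vale.Agent.P032.Lt.q R0Q008.q109_6) (q_cons (Vale.Agent.P032.Lt.q R0Q008.q109_7) (q_cons (Vale.Agent.P032.Lt.q R0Q008.q109_8) (q_cons (Vale.Agent.P032.Lt.q R0Q008.q109_9) q_nil))))))))))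

theorem p110 : Pat 73 73 TBm TCm E R0Q008.P110 R0Q008.I110 := pat_step (by decide +kernel) (q_cons (Vale.Agent.P032.Lt.q R0Q008.q110_0) (q_cons (Vale.Agent.P032.Lt.q R0Q008.q110_1) (q_cons (Vale.Agent.P032.Lt.q R0Q008.q110_2) (q_cons (Vale.Agent.P032.Lt.q R0Q008.q110_3) (q_cons (Vale.Agent.P032.Lt.q R0Q008.q110_4) q_nil)))))

theorem p111 : Pat 73 73 TBm TCm E R0Q008.P111 R0Q008.I111 := pat_step (by decide +kernel) (q_cons (Vale.Agent.P032.Lt.q R0Q008.q111_0) (q_cons (Vale.Agent.P032.Lt.q R0Q008.q111_1) (q_cons (Vale.Agent.P032.Lt.q R0Q008.q111_2) (q_cons (Vale.Agent.P032.Lt.q R0Q008.q111_3) q_nil))))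

theorem p112 : Pat 73 73 TBm TCm E R0Q008.P112 R0Q008.I112 := pat_step (by decide +kernel) (q_cons (Vale.Agent.P032.Lt.q R0Q008.q112_0) (q_cons (Vale.Agent.P032.Lt.q R0Q008.q112_1) (q_cons (Vale.Agent.P032.Lt.q R0Q008.q112_2) (q_cons (Vale.Agent.P032.Lt.q R0Q008.q112_3) (q_cons (Vale.Agent.P032.Lt.q R0Q008.q112_4) (q_cons (Vale.Agent.P032.Lt.q R0Q008.q112_5) q_nil))))))

theorem p113 : Pat 73 73 TBm TCm E R0Q008.P113 R0Q008.I113 := pat_step (by decide +kernel) (q_cons (Vale.Agent.P032.Lt.q R0Q008.q113_0) (q_cons (Vale.Agent.P032.Lt.q R0Q008.q113_1) (q_cons (Vale.Agent.P032.Lt.q R0Q008.q113_2) q_nil)))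

theorem p114 : Pat 73 73 TBm TCm E R0Q008.P114 R0Q008.I114 := pat_step (by decide +kernel) (q_cons (Vale.Agent.P032.Lt.q R0Q008.q114_0) (q_cons (Vale.Agent.P032.Lt.q R0Q008.q114_1) (q_cons (Vale.Agent.P032.Lt.q R0Q008.q114_2) (q_cons (Vale.Agent.P032.Lt.q R0Q008.q114_3) (q_cons (Vale.Agent.P032.Lt.q R0Q008.q114_4) (q_cons (Vale.Agent.P032.Lt.q R0Q008.q114_5) q_nil))))))

theorem p115 : Pat 73 73 TBm TCm E R0Q008.P115 R0Q008.I115 := pat_step (by decide +kernel) (q_cons (Vale.Agent.P032.Lt.q R0Q008.q115_0) (q_cons (Vale.Agent.P032.Lt.q R0Q008.q115_1) (q_cons (Vale.Agent.P032.Lt.q R0Q008.q115_2) q_nil)))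

theorem p116 : Pat 73 73 TBm TCm E R0Q008.P116 R0Q008.I116 := pat_step (by decide +kernel) (q_cons (Vale.Agent.P032.Lt.q R0Q008.q116_0) (q_cons (Vale.Agent.P032.Lt.q R0Q008.q116_1) (q_cons (Vale.Agent.P032.Lt.q R0Q008.q116_2) q_nil)))

theorem p117 : Pat 73 73 TBm TCm E R0Q008.P117 R0Q008.I117 := pat_step (by decide +kernel) (q_cons (Vale.Agent.P032.Lt.q R0Q008.q117_0) (q_cons (Vale.Agent.P032.Lt.q R0Q008.q117_1) (q_cons (Vale.Agent.P032.Lt.q R0Q008.q117_2) (q_cons (Vale.Agent.P032.Lt.q R0Q008.q117_3) q_nil))))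

theorem p118 : Pat 73 73 TBm TCm E R0Q009.P118 R0Q009.I118 := pat_step (by decide +kernel) (q_cons (Vale.Agent.P032.Lt.q R0Q009.q118_0) (q_cons (Vale.Agent.P032.Lt.q R0Q009.q118_1) (q_cons (Vale.Agent.P032.Lt.q R0Q009.q118_2) (q_cons (Vale.Agent.P032.Lt.q R0Q009.q118_3) q_nil))))

theorem p119 : Pat 73 73 TBm TCm E R0Q009.P119 R0Q009.I119 := pat_step (by decide +kernel) (q_cons (Vale.Agent.P032.Lt.q R0Q009.q119_0) (q_cons (Vale.Agent.P032.Lt.q R0Q009.q119_1) q_nil))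

theorem p120 : Pat 73 73 TBm TCm E R0Q009.P120 R0Q009.I120 := pat_step (by decide +kernel) (q_cons (Vale.Agent.P032.Lt.q R0Q009.q120_0) (q_cons (Vale.Agent.P032.Lt.q R0Q009.q120_1) (q_cons (Vale.Agent.P032.Lt.q R0Q009.q120_2) q_nil)))

theorem p121 : Pat 73 73 TBm TCm E R0Q009.P121 R0Q009.I121 := pat_step (by decide +kernel) (q_cons (Vale.Agent.P032.Lt.q R0Q009.q121_0) (q_cons (Vale.Agent.P032.Lt.q R0Q009.q121_1) (q_cons (Vale.Agent.P032.Lt.q R0Q009.q121_2) (q_cons (Vale.Agent.P032.Lt.q R0Q009.q121_3) (q_cons (Vale.Agent.P032.Lt.q R0Q009.q121_4) (q_cons (Vale.Agent.P032.Lt.q R0Q009.q121_5) (q_cons (Vale.Agent.P032.Lt.q R0Q009.q121_6) (q_cons (Vale.Agent.P032.Lt.q R0Q009.q121_7) (q_cons (Vale.Agent.P032.Lt.q R0Q009.q121_8) (q_cons (Vale.Agent.P032.Lt.q R0Q009.q121_9) (q_cons (Vale.Agent.P032.Lt.q R0Q009.q121_10) (q_cons (Vale.Agent.P032.Lt.q R0Q009.q121_11)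 q_nil))))))))))))

theorem p122 : Pat 73 73 TBm TCm E R0Q009.P122 R0Q009.I122 := pat_step (by decide +kernel) (q_cons (Vale.Agent.P032.Lt.q R0Q009.q122_0) (q_cons (Vale.Agent.P032.Lt.q R0Q009.q122_1) (q_cons (Vale.Agent.P032.Lt.q R0Q009.q122_2) (q_cons (Vale.Agent.P032.Lt.q R0Q009.q122_3) (q_cons (Vale.Agent.P032.Lt.q R0Q009.q122_4) (q_cons (Vale.Agent.P032.Lt.q R0Q009.q122_5) (q_cons (Vale.Agent.P032.Lt.q R0Q009.q122_6) (q_cons (Vale.Agent.P032.Lt.q R0Q009.q122_7) (q_cons (Vale.Agent.P032.Lt.q R0Q009.q122_8) q_nil)))))))))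

theorem p123 : Pat 73 73 TBm TCm E R0Q009.P123 R0Q009.I123 := pat_step (by decide +kernel) (q_cons (Vale.Agent.P032.Lt.q R0Q009.q123_0) (q_cons (Vale.Agent.P032.Lt.q R0Q009.q123_1) (q_cons (Vale.Agent.P032.Lt.q R0Q009.q123_2) (q_cons (Vale.Agent.P032.Lt.q R0Q009.q123_3) (q_cons (Vale.Agent.P032.Lt.q R0Q009.q123_4) (q_cons (Vale.Agent.P032.Lt.q R0Q009.q123_5) q_nil))))))

theorem p124 : Pat 73 73 TBm TCm E R0Q009.P124 R0Q009.I124 := pat_step (by decide +kernel) (q_cons (Vale.Agent.P032.Lt.q R0Q009.q124_0) q_nil)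

theorem p125 : Pat 73 73 TBm TCm E R0Q009.P125 R0Q009.I125 := pat_step (by decide +kernel) (q_cons (Vale.Agent.P032.Lt.q R0Q009.q125_0) (q_cons (Vale.Agent.P032.Lt.q R0Q009.q125_1) q_nil))

theorem p126 : Pat 73 73 TBm TCm E R0Q009.P126 R0Q009.I126 := pat_step (by decide +kernel) (q_cons (Vale.Agent.P032.Lt.q R0Q009.q126_0) (q_cons (Vale.Agent.P032.Lt.q R0Q009.q126_1) (q_cons (Vale.Agent.P032.Lt.q R0Q009.q126_2) (q_cons (Vale.Agent.P032.Lt.q R0Q009.q126_3) (q_cons (Vale.Agent.P032.Lt.q R0Q009.q126_4) (q_cons (Vale.Agent.P032.Lt.q R0Q009.q126_5) (q_cons (Vale.Agent.P032.Lt.q R0Q009.q126_6) (q_cons (Vale.Agent.P032.Lt.q R0Q009.q126_7) (q_cons (Vale.Agent.P032.Lt.q R0Q009.q126_8) (q_cons (Vale.Agent.P032.Lt.q R0Q009.q126_9) (q_cons (Vale.Agent.P032.Lt.q R0Q009.q126_10) q_nil)))))))))))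

theorem p127 : Pat 73 73 TBm TCm E R0Q009.P127 R0Q009.I127 := pat_step (by decide +kernel) (q_cons (Vale.Agent.P032.Lt.q R0Q009.q127_0) (q_cons (Vale.Agent.P032.Lt.q R0Q009.q127_1) (q_cons (Vale.Agent.P032.Lt.q R0Q009.q127_2) (q_cons (Vale.Agent.P032.Lt.q R0Q009.q127_3) q_nil))))

theorem p128 : Pat 73 73 TBm TCm E R0Q009.P128 R0Q009.I128 := pat_step (by decide +kernel) (q_cons (Vale.Agent.P032.Lt.q R0Q009.q128_0) (q_cons (Vale.Agent.P032.Lt.q R0Q009.q128_1) (q_cons (Vale.Agent.P032.Lt.q R0Q009.q128_2) (q_cons (Vale.Agent.P032.Lt.q R0Q009.q128_3) (q_cons (Vale.Agent.P032.Lt.q R0Q009.q128_4) (q_cons (Vale.Agent.P032.Lt.q R0Q009.q128_5) q_nil))))))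

theorem p129 : Pat 73 73 TBm TCm E R0Q009.P129 R0Q009.I129 := pat_step (by decide +kernel) (q_cons (Vale.Agent.P032.Lt.q R0Q009.q129_0) (q_cons (Vale.Agent.P032.Lt.q R0Q009.q129_1) (q_cons (Vale.Agent.P032.Lt.q R0Q009.q129_2) (q_cons (Vale.Agent.P032.Lt.q R0Q009.q129_3) (q_cons (Vale.Agent.P032.Lt.q R0Q009.q129_4) q_nil)))))

def L : List (List ℕ) := [R0Q000.P0, R0Q000.P1, R0Q000.P2, R0Q000.P3, R0Q000.P4, R0Q000.P5, R0Q000.P6, R0Q000.P7, R0Q000.P8, R0Q000.P9, R0Q000.P10, R0Q000.P11, R0Q000.P12, R0Q000.P13, R0Q001.P14, R0Q001.P15, R0Q001.P16, R0Q001.P17, R0Q001.P18, R0Q001.P19, R0Q001.P20, R0Q002.P21, R0Q002.P22, R0Q002.P23, R0Q002.P24, R0Q002.P25, R0Q002.P26, R0Q002.P27, R0Q002.P28, R0Q002.P29, R0Q002.P30, R0Q002.P31, R0Q002.P32, R0Q002.P33, R0Q002.P34, R0Q002.P35, R0Q002.P36, R0Q002.P37, R0Q002.P38, R0Q002.P39, R0Q003.P40, R0Q003.P41, R0Q003.P42,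 R0Q003.P43, R0Q003.P44, R0Q003.P45, R0Q003.P46, R0Q003.P47, R0Q003.P48, R0Q004.P49, R0Q004.P50, R0Q004.P51, R0Q004.P52, R0Q004.P53, R0Q004.P54, R0Q004.P55, R0Q004.P56, R0Q004.P57, R0Q004.P58, R0Q004.P59, R0Q004.P60, R0Q005.P61, R0Q005.P62, R0Q005.P63, R0Q005.P64, R0Q005.P65, R0Q005.P66, R0Q005.P67, R0Q005.P68, R0Q005.P69, R0Q005.P70, R0Q005.P71, R0Q005.P72, R0Q005.P73, R0Q006.P74, R0Q006.P75, R0Q006.P76, R0Q006.P77, R0Q006.P78, R0Q006.P79, R0Q006.P80, R0Q006.P81, R0Q006.P82, R0Q006.P83, R0Q006.P84, R0Q006.P85, R0Q006.P86, R0Q006.P87, R0Q006.P88, R0Q006.P89, R0Q007.P90, R0Q007.P91, R0Q007.P92, R0Q007.P93, R0Q007.P94, R0Q007.P95, R0Q007.P96, R0Q007.P97, R0Q007.P98, R0Q007.P99, R0Q007.P100, R0Q007.P101, R0Q007.P102, R0Q007.P103, R0Q007.P104, R0Q008.P105, R0Q008.P106, R0Q008.P107, R0Q008.P108, R0Q008.P109, R0Q008.P110, R0Q008.P111, R0Q008.P112, R0Q008.P113,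 R0Q008.P114, R0Q008.P115, R0Q008.P116, R0Q008.P117, R0Q009.P118, R0Q009.P119, R0Q009.P120, R0Q009.P121, R0Q009.P122, R0Q009.P123, R0Q009.P124, R0Q009.P125, R0Q009.P126, R0Q009.P127, R0Q009.P128, R0Q009.P129]

theorem all : ∀ P ∈ L, Crt 73 73 TBm TCm E P := crt_cons p0 (crt_cons p1 (crt_cons p2 (crt_cons p3 (crt_cons p4 (crt_cons p5 (crt_cons p6 (crt_cons p7 (crt_cons p8 (crt_cons p9 (crt_cons p10 (crt_cons p11 (crt_cons p12 (crt_cons p13 (crt_cons p14 (crt_cons p15 (crt_cons p16 (crt_cons p17 (crt_cons p18 (crt_cons p19 (crt_cons p20 (crt_cons p21 (crt_cons p22 (crt_cons p23 (crt_cons p24 (crt_cons p25 (crt_cons p26 (crt_cons p27 (crt_cons p28 (crt_cons p29 (crt_cons p30 (crt_cons p31 (crt_cons p32 (crt_cons p33 (crt_cons p34 (crt_cons p35 (crt_cons p36 (crt_cons p37 (crt_cons p38 (crt_cons p39 (crt_cons p40 (crt_cons p41 (crt_cons p42 (crt_cons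 p43 (crt_cons p44 (crt_cons p45 (crt_cons p46 (crt_cons p47 (crt_cons p48 (crt_cons p49 (crt_cons p50 (crt_cons p51 (crt_cons p52 (crt_cons p53 (crt_cons p54 (crt_cons p55 (crt_cons p56 (crt_cons p57 (crt_cons p58 (crt_cons p59 (crt_cons p60 (crt_cons p61 (crt_cons p62 (crt_cons p63 (crt_cons p64 (crt_cons p65 (crt_cons p66 (crt_cons p67 (crt_cons p68 (crt_cons p69 (crt_cons p70 (crt_cons p71 (crt_cons p72 (crt_cons p73 (crt_cons p74 (crt_cons p75 (crt_cons p76 (crt_cons p77 (crt_cons p78 (crt_cons p79 (crt_cons p80 (crt_cons p81 (crt_cons p82 (crt_cons p83 (crt_cons p84 (crt_cons p85 (crt_cons p86 (crt_cons p87 (crt_cons p88 (crt_cons p89 (crt_cons p90 (crt_cons p91 (crt_cons p92 (crt_cons p93 (crt_cons p94 (crt_cons p95 (crt_cons p96 (crt_cons p97 (crt_cons p98 (crt_cons p99 (crt_cons p100 (crt_cons p101 (crt_cons p102 (crt_cons p103 (crt_cons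 p104 (crt_cons p105 (crt_cons p106 (crt_cons p107 (crt_cons p108 (crt_cons p109 (crt_cons p110 (crt_cons p111 (crt_cons p112 (crt_cons p113 (crt_cons p114 (crt_cons p115 (crt_cons p116 (crt_cons p117 (crt_cons p118 (crt_cons p119 (crt_cons p120 (crt_cons p121 (crt_cons p122 (crt_cons p123 (crt_cons p124 (crt_cons p125 (crt_cons p126 (crt_cons p127 (crt_cons p128 (crt_cons p129 crt_nil)))))))))))))))))))))))))))))))))))))))))))))))))))))))))))))))))))))))))))))))))))))))))))))))))))))))))))))))))))))))))))))))))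

end Vale.Agent.P032X.Cert.X1b.A.R0H000
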