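import Vale.Agent.P032X.H892.LtH
import Vale.Agent.P032X.H286.Z73
import Vale.Agent.P032X.Cert.X1b.A.R0Q010
import Vale.Agent.P032X.Cert.X1b.A.R0Q011
import Vale.Agent.P032X.Cert.X1b.A.R0Q012
import Vale.Agent.P032X.Cert.X1b.A.R0Q013
import Vale.Agent.P032X.Cert.X1b.A.R0Q014
import Vale.Agent.P032X.Cert.X1b.A.R0Q015
import Vale.Agent.P032X.Cert.X1b.A.R0Q016
import Vale.Agent.P032X.Cert.X1b.A.R0Q017
import Vale.Agent.P032X.Cert.X1b.A.R0Q018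
import Vale.Agent.P032X.Cert.X1b.A.R0Q019

set_option maxRecDepth 1000000

namespace Vale.Agent.P032X.Cert.X1b.A.R0H001

open Vale.Agent.P032.H820.K Vale.Agent.P032.H357.MK Vale.Agent.P032.H286.E Vale.Agent.P032.H61 

def E : List (List ℕ) := EZ 31

theorem p130 : Pat 73 73 TBm TCm E R0Q010.P130 R0Q010.I130 := pat_step (by decide +kernel) (q_cons (Vale.Agent.P032.Lt.q R0Q010.q130_0) (q_cons (Vale.Agent.P032.Lt.q R0Q010.q130_1) (q_cons (Vale.Agent.P032.Lt.q R0Q010.q130_2) q_nil)))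

theorem p131 : Pat 73 73 TBm TCm E R0Q010.P131 R0Q010.I131 := pat_step (by decide +kernel) (q_cons (Vale.Agent.P032.Lt.q R0Q010.q131_0) (q_cons (Vale.Agent.P032.Lt.q R0Q010.q131_1) q_nil))

theorem p132 : Pat 73 73 TBm TCm E R0Q010.P132 R0Q010.I132 := pat_step (by decide +kernel) (q_cons (Vale.Agent.P032.Lt.q R0Q010.q132_0) (q_cons (Vale.Agent.P032.Lt.q R0Q010.q132_1) (q_cons (Vale.Agent.P032.Lt.q R0Q010.q132_2) (q_cons (Vale.Agent.P032.Lt.q R0Q010.q132_3) (q_cons (Vale.Agent.P032.Lt.q R0Q010.q132_4) q_nil)))))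

theorem p133 : Pat 73 73 TBm TCm E R0Q010.P133 R0Q010.I133 := pat_step (by decide +kernel) (q_cons (Vale.Agent.P032.Lt.q R0Q010.q133_0) q_nil)

theorem p134 : Pat 73 73 TBm TCm E R0Q010.P134 R0Q010.I134 := pat_step (by decide +kernel) (q_cons (Vale.Agent.P032.Lt.q R0Q010.q134_0) q_nil)

theorem p135 : Pat 73 73 TBm TCm E R0Q010.P135 R0Q010.I135 := pat_step (by decide +kernel) (q_cons (Vale.Agent.P032.Lt.q R0Q010.q135_0) (q_cons (Vale.Agent.P032.Lt.q R0Q010.q135_1) (q_cons (Vale.Agent.P032.Lt.q R0Q010.q135_2) (q_cons (Vale.Agent.P032.Lt.q R0Q010.q135_3) q_nil))))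

theorem p136 : Pat 73 73 TBm TCm E R0Q010.P136 R0Q010.I136 := pat_step (by decide +kernel) (q_cons (Vale.Agent.P032.Lt.q R0Q010.q136_0) (q_cons (Vale.Agent.P032.Lt.q R0Q010.q136_1) (q_cons (Vale.Agent.P032.Lt.q R0Q010.q136_2) q_nil)))

theorem p137 : Pat 73 73 TBm TCm E R0Q010.P137 R0Q010.I137 := pat_step (by decide +kernel) (q_cons (Vale.Agent.P032.Lt.q R0Q010.q137_0) q_nil)

theorem p138 : Pat 73 73 TBm TCm E R0Q010.P138 R0Q010.I138 := pat_step (by decide +kernel) (q_cons (Vale.Agent.P032.Lt.q R0Q010.q138_0) (q_cons (Vale.Agent.P032.Lt.q R0Q010.q138_1) q_nil))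

theorem p139 : Pat 73 73 TBm TCm E R0Q010.P139 R0Q010.I139 := pat_step (by decide +kernel) (q_cons (Vale.Agent.P032.Lt.q R0Q010.q139_0) (q_cons (Vale.Agent.P032.Lt.q R0Q010.q139_1) q_nil))

theorem p140 : Pat 73 73 TBm TCm E R0Q010.P140 R0Q010.I140 := pat_step (by decide +kernel) (q_cons (Vale.Agent.P032.Lt.q R0Q010.q140_0) q_nil)

theorem p141 : Pat 73 73 TBm TCm E R0Q010.P141 R0Q010.I141 := pat_step (by decide +kernel) (q_cons (Vale.Agent.P032.Lt.q R0Q010.q141_0) q_nil)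

theorem p142 : Pat 73 73 TBm TCm E R0Q010.P142 R0Q010.I142 := pat_step (by decide +kernel) (q_cons (Vale.Agent.P032.Lt.q R0Q010.q142_0) (q_cons (Vale.Agent.P032.Lt.q R0Q010.q142_1) q_nil))

theorem p143 : Pat 73 73 TBm TCm E R0Q010.P143 R0Q010.I143 := pat_step (by decide +kernel) (q_cons (Vale.Agent.P032.Lt.q R0Q010.q143_0) q_nil)

theorem p144 : Pat 73 73 TBm TCm E R0Q010.P144 R0Q010.I144 := pat_step (by decide +kernel) (q_cons (Vale.Agent.P032.Lt.q R0Q010.q144_0) (q_cons (Vale.Agent.P032.Lt.q R0Q010.q144_1) (q_cons (Vale.Agent.P032.Lt.q R0Q010.q144_2) (q_cons (Vale.Agent.P032.Lt.q R0Q010.q144_3) (q_cons (Vale.Agent.P032.Lt.q R0Q010.q144_4) (q_cons (Vale.Agent.P032.Lt.q R0Q010.q144_5) (q_cons (Vale.Agent.P032.Lt.q R0Q010.q144_6) (q_cons (Vale.Agent.P032.Lt.q R0Q010.q144_7) (q_cons (Vale.Agent.P032.Lt.q R0Q010.q144_8) (q_cons (Vale.Agent.P032.Lt.q R0Q010.q144_9)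 (q_cons (Vale.Agent.P032.Lt.q R0Q010.q144_10) (q_cons (Vale.Agent.P032.Lt.q R0Q010.q144_11) (q_cons (Vale.Agent.P032.Lt.q R0Q010.q144_12) q_nil)))))))))))))

theorem p145 : Pat 73 73 TBm TCm E R0Q010.P145 R0Q010.I145 := pat_step (by decide +kernel) (q_cons (Vale.Agent.P032.Lt.q R0Q010.q145_0) (q_cons (Vale.Agent.P032.Lt.q R0Q010.q145_1) (q_cons (Vale.Agent.P032.Lt.q R0Q010.q145_2) (q_cons (Vale.Agent.P032.Lt.q R0Q010.q145_3) (q_cons (Vale.Agent.P032.Lt.q R0Q010.q145_4) (q_cons (Vale.Agent.P032.Lt.q R0Q010.q145_5) (q_cons (Vale.Agent.P032.Lt.q R0Q010.q145_6) (q_cons (Vale.Agent.P032.Lt.q R0Q010.q145_7) (q_cons (Vale.Agent.P032.Lt.q R0Q010.q145_8) (q_cons (Vale.Agent.P032.Lt.q R0Q010.q145_9) (q_cons (Vale.Agent.P032.Lt.q R0Q010.q145_10) (q_cons (Vale.Agent.P032.Lt.q R0Q010.q145_11) (q_cons (Vale.Agent.P032.Lt.q R0Q010.q145_12) (q_cons (Vale.Agent.P032.Lt.q R0Q010.q145_13)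 (q_cons (Vale.Agent.P032.Lt.q R0Q010.q145_14) (q_cons (Vale.Agent.P032.Lt.q R0Q010.q145_15) (q_cons (Vale.Agent.P032.Lt.q R0Q010.q145_16) (q_cons (Vale.Agent.P032.Lt.q R0Q010.q145_17) (q_cons (Vale.Agent.P032.Lt.q R0Q010.q145_18) q_nil)))))))))))))))))))

theorem p146 : Pat 73 73 TBm TCm E R0Q010.P146 R0Q010.I146 := pat_step (by decide +kernel) (q_cons (Vale.Agent.P032.Lt.q R0Q010.q146_0) (q_cons (Vale.Agent.P032.Lt.q R0Q010.q146_1) (q_cons (Vale.Agent.P032.Lt.q R0Q010.q146_2) (q_cons (Vale.Agent.P032.Lt.q R0Q010.q146_3) (q_cons (Vale.Agent.P032.Lt.q R0Q010.q146_4) (q_cons (Vale.Agent.P032.Lt.q R0Q010.q146_5) (q_cons (Vale.Agent.P032.Lt.q R0Q010.q146_6) (q_cons (Vale.Agent.P032.Lt.q R0Q010.q146_7) (q_cons (Vale.Agent.P032.Lt.q R0Q010.q146_8) (q_cons (Vale.Agent.P032.Lt.q R0Q010.q146_9) (q_cons (Vale.Agent.P032.Lt.q R0Q010.q146_10) (q_cons (Vale.Agent.P032.Lt.q R0Q010.q146_11)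 (q_cons (Vale.Agent.P032.Lt.q R0Q010.q146_12) q_nil)))))))))))))

theorem p147 : Pat 73 73 TBm TCm E R0Q011.P147 R0Q011.I147 := pat_step (by decide +kernel) (q_cons (Vale.Agent.P032.Lt.q R0Q011.q147_0) (q_cons (Vale.Agent.P032.Lt.q R0Q011.q147_1) (q_cons (Vale.Agent.P032.Lt.q R0Q011.q147_2) (q_cons (Vale.Agent.P032.Lt.q R0Q011.q147_3) (q_cons (Vale.Agent.P032.Lt.q R0Q011.q147_4) (q_cons (Vale.Agent.P032.Lt.q R0Q011.q147_5) (q_cons (Vale.Agent.P032.Lt.q R0Q011.q147_6) (q_cons (Vale.Agent.P032.Lt.q R0Q011.q147_7) (q_cons (Vale.Agent.P032.Lt.q R0Q011.q147_8) (q_cons (Vale.Agent.P032.Lt.q R0Q011.q147_9) (q_cons (Vale.Agent.P032.Lt.q R0Q011.q147_10) (q_cons (Vale.Agent.P032.Lt.q R0Q011.q147_11) q_nil))))))))))))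

theorem p148 : Pat 73 73 TBm TCm E R0Q011.P148 R0Q011.I148 := pat_step (by decide +kernel) (q_cons (Vale.Agent.P032.Lt.q R0Q011.q148_0) (q_cons (Vale.Agent.P032.Lt.q R0Q011.q148_1) (q_cons (Vale.Agent.P032.Lt.q R0Q011.q148_2) (q_cons (Vale.Agent.P032.Lt.q R0Q011.q148_3) (q_cons (Vale.Agent.P032.Lt.q R0Q011.q148_4) (q_cons (Vale.Agent.P032.Lt.q R0Q011.q148_5) (q_cons (Vale.Agent.P032.Lt.q R0Q011.q148_6) q_nil)))))))

theorem p149 : Pat 73 73 TBm TCm E R0Q011.P149 R0Q011.I149 := pat_step (by decide +kernel) (q_cons (Vale.Agent.P032.Lt.q R0Q011.q149_0) (q_cons (Vale.Agent.P032.Lt.q R0Q011.q149_1) (q_cons (Vale.Agent.P032.Lt.q R0Q011.q149_2) (q_cons (Vale.Agent.P032.Lt.q R0Q011.q149_3) (q_cons (Vale.Agent.P032.Lt.q R0Q011.q149_4) (q_cons (Vale.Agent.P032.Lt.q R0Q011.q149_5) (q_cons (Vale.Agent.P032.Lt.q R0Q011.q149_6) q_nil)))))))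

theorem p150 : Pat 73 73 TBm TCm E R0Q011.P150 R0Q011.I150 := pat_step (by decide +kernel) (q_cons (Vale.Agent.P032.Lt.q R0Q011.q150_0) (q_cons (Vale.Agent.P032.Lt.q R0Q011.q150_1) (q_cons (Vale.Agent.P032.Lt.q R0Q011.q150_2) (q_cons (Vale.Agent.P032.Lt.q R0Q011.q150_3) q_nil))))

theorem p151 : Pat 73 73 TBm TCm E R0Q011.P151 R0Q011.I151 := pat_step (by decide +kernel) (q_cons (Vale.Agent.P032.Lt.q R0Q011.q151_0) (q_cons (Vale.Agent.P032.Lt.q R0Q011.q151_1) (q_cons (Vale.Agent.P032.Lt.q R0Q011.q151_2) (q_cons (Vale.Agent.P032.Lt.q R0Q011.q151_3) (q_cons (Vale.Agent.P032.Lt.q R0Q011.q151_4) (q_cons (Vale.Agent.P032.Lt.q R0Q011.q151_5) (q_cons (Vale.Agent.P032.Lt.q R0Q011.q151_6) (q_cons (Vale.Agent.P032.Lt.q R0Q011.q151_7) (q_cons (Vale.Agent.P032.Lt.q R0Q011.q151_8) q_nil)))))))))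

theorem p152 : Pat 73 73 TBm TCm E R0Q011.P152 R0Q011.I152 := pat_step (by decide +kernel) (q_cons (Vale.Agent.P032.Lt.q R0Q011.q152_0) (q_cons (Vale.Agent.P032.Lt.q R0Q011.q152_1) (q_cons (Vale.Agent.P032.Lt.q R0Q011.q152_2) q_nil)))

theorem p153 : Pat 73 73 TBm TCm E R0Q011.P153 R0Q011.I153 := pat_step (by decide +kernel) (q_cons (Vale.Agent.P032.Lt.q R0Q011.q153_0) (q_cons (Vale.Agent.P032.Lt.q R0Q011.q153_1) (q_cons (Vale.Agent.P032.Lt.q R0Q011.q153_2) q_nil)))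

theorem p154 : Pat 73 73 TBm TCm E R0Q011.P154 R0Q011.I154 := pat_step (by decide +kernel) (q_cons (Vale.Agent.P032.Lt.q R0Q011.q154_0) (q_cons (Vale.Agent.P032.Lt.q R0Q011.q154_1) (q_cons (Vale.Agent.P032.Lt.q R0Q011.q154_2) (q_cons (Vale.Agent.P032.Lt.q R0Q011.q154_3) (q_cons (Vale.Agent.P032.Lt.q R0Q011.q154_4) (q_cons (Vale.Agent.P032.Lt.q R0Q011.q154_5) (q_cons (Vale.Agent.P032.Lt.q R0Q011.q154_6) (q_cons (Vale.Agent.P032.Lt.q R0Q011.q154_7) (q_cons (Vale.Agent.P032.Lt.q R0Q011.q154_8) (q_cons (Vale.Agent.P032.Lt.q R0Q011.q154_9) (q_cons (Vale.Agent.P032.Lt.q R0Q011.q154_10) q_nil)))))))))))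

theorem p155 : Pat 73 73 TBm TCm E R0Q011.P155 R0Q011.I155 := pat_step (by decide +kernel) (q_cons (Vale.Agent.P032.Lt.q R0Q011.q155_0) (q_cons (Vale.Agent.P032.Lt.q R0Q011.q155_1) (q_cons (Vale.Agent.P032.Lt.q R0Q011.q155_2) (q_cons (Vale.Agent.P032.Lt.q R0Q011.q155_3) (q_cons (Vale.Agent.P032.Lt.q R0Q011.q155_4) q_nil)))))

theorem p156 : Pat 73 73 TBm TCm E R0Q011.P156 R0Q011.I156 := pat_step (by decide +kernel) (q_cons (Vale.Agent.P032.Lt.q R0Q011.q156_0) (q_cons (Vale.Agent.P032.Lt.q R0Q011.q156_1) (q_cons (Vale.Agent.P032.Lt.q R0Q011.q156_2) (q_cons (Vale.Agent.P032.Lt.q R0Q011.q156_3) (q_cons (Vale.Agent.P032.Lt.q R0Q011.q156_4) (q_cons (Vale.Agent.P032.Lt.q R0Q011.q156_5) (q_cons (Vale.Agent.P032.Lt.q R0Q011.q156_6) (q_cons (Vale.Agent.P032.Lt.q R0Q011.q156_7) (q_cons (Vale.Agent.P032.Lt.q R0Q011.q156_8) q_nil)))))))))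

theorem p157 : Pat 73 73 TBm TCm E R0Q012.P157 R0Q012.I157 := pat_step (by decide +kernel) (q_cons (Vale.Agent.P032.Lt.q R0Q012.q157_0) (q_cons (Vale.Agent.P032.Lt.q R0Q012.q157_1) (q_cons (Vale.Agent.P032.Lt.q R0Q012.q157_2) (q_cons (Vale.Agent.P032.Lt.q R0Q012.q157_3) (q_cons (Vale.Agent.P032.Lt.q R0Q012.q157_4) (q_cons (Vale.Agent.P032.Lt.q R0Q012.q157_5) (q_cons (Vale.Agent.P032.Lt.q R0Q012.q157_6) (q_cons (Vale.Agent.P032.Lt.q R0Q012.q157_7) (q_cons (Vale.Agent.P032.Lt.q R0Q012.q157_8) (q_cons (Vale.Agent.P032.Lt.q R0Q012.q157_9) (q_cons (Vale.Agent.P032.Lt.q R0Q012.q157_10) (q_cons (Vale.Agent.P032.Lt.q R0Q012.q157_11) (q_cons (Vale.Agent.P032.Lt.q R0Q012.q157_12) (q_cons (Vale.Agent.P032.Lt.q R0Q012.q157_13) (q_cons (Vale.Agent.P032.Lt.q R0Q012.q157_14) q_nil)))))))))))))))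

theorem p158 : Pat 73 73 TBm TCm E R0Q012.P158 R0Q012.I158 := pat_step (by decide +kernel) (q_cons (Vale.Agent.P032.Lt.q R0Q012.q158_0) (q_cons (Vale.Agent.P032.Lt.q R0Q012.q158_1) (q_cons (Vale.Agent.P032.Lt.q R0Q012.q158_2) q_nil)))

theorem p159 : Pat 73 73 TBm TCm E R0Q012.P159 R0Q012.I159 := pat_step (by decide +kernel) (q_cons (Vale.Agent.P032.Lt.q R0Q012.q159_0) (q_cons (Vale.Agent.P032.Lt.q R0Q012.q159_1) (q_cons (Vale.Agent.P032.Lt.q R0Q012.q159_2) q_nil)))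

theorem p160 : Pat 73 73 TBm TCm E R0Q012.P160 R0Q012.I160 := pat_step (by decide +kernel) (q_cons (Vale.Agent.P032.Lt.q R0Q012.q160_0) (q_cons (Vale.Agent.P032.Lt.q R0Q012.q160_1) (q_cons (Vale.Agent.P032.Lt.q R0Q012.q160_2) (q_cons (Vale.Agent.P032.Lt.q R0Q012.q160_3) (q_cons (Vale.Agent.P032.Lt.q R0Q012.q160_4) (q_cons (Vale.Agent.P032.Lt.q R0Q012.q160_5) (q_cons (Vale.Agent.P032.Lt.q R0Q012.q160_6) (q_cons (Vale.Agent.P032.Lt.q R0Q012.q160_7) (q_cons (Vale.Agent.P032.Lt.q R0Q012.q160_8) (q_cons (Vale.Agent.P032.Lt.q R0Q012.q160_9) (q_cons (Vale.Agent.P032.Lt.q R0Q012.q160_10) (q_cons (Vale.Agent.P032.Lt.q R0Q012.q160_11) q_nil))))))))))))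

theorem p161 : Pat 73 73 TBm TCm E R0Q012.P161 R0Q012.I161 := pat_step (by decide +kernel) (q_cons (Vale.Agent.P032.Lt.q R0Q012.q161_0) (q_cons (Vale.Agent.P032.Lt.q R0Q012.q161_1) (q_cons (Vale.Agent.P032.Lt.q R0Q012.q161_2) q_nil)))

theorem p162 : Pat 73 73 TBm TCm E R0Q012.P162 R0Q012.I162 := pat_step (by decide +kernel) (q_cons (Vale.Agent.P032.Lt.q R0Q012.q162_0) (q_cons (Vale.Agent.P032.Lt.q R0Q012.q162_1) (q_cons (Vale.Agent.P032.Lt.q R0Q012.q162_2) q_nil)))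

theorem p163 : Pat 73 73 TBm TCm E R0Q012.P163 R0Q012.I163 := pat_step (by decide +kernel) (q_cons (Vale.Agent.P032.Lt.q R0Q012.q163_0) (q_cons (Vale.Agent.P032.Lt.q R0Q012.q163_1) (q_cons (Vale.Agent.P032.Lt.q R0Q012.q163_2) (q_cons (Vale.Agent.P032.Lt.q R0Q012.q163_3) (q_cons (Vale.Agent.P032.Lt.q R0Q012.q163_4) (q_cons (Vale.Agent.P032.Lt.q R0Q012.q163_5) (q_cons (Vale.Agent.P032.Lt.q R0Q012.q163_6) q_nil)))))))

theorem p164 : Pat 73 73 TBm TCm E R0Q012.P164 R0Q012.I164 := pat_step (by decide +kernel) (q_cons (Vale.Agent.P032.Lt.q R0Q012.q164_0) (q_cons (Vale.Agent.P032.Lt.q R0Q012.q164_1) (q_cons (Vale.Agent.P032.Lt.q R0Q012.q164_2) q_nil)))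

theorem p165 : Pat 73 73 TBm TCm E R0Q012.P165 R0Q012.I165 := pat_step (by decide +kernel) (q_cons (Vale.Agent.P032.Lt.q R0Q012.q165_0) (q_cons (Vale.Agent.P032.Lt.q R0Q012.q165_1) (q_cons (Vale.Agent.P032.Lt.q R0Q012.q165_2) q_nil)))

theorem p166 : Pat 73 73 TBm TCm E R0Q013.P166 R0Q013.I166 := pat_step (by decide +kernel) (q_cons (Vale.Agent.P032.Lt.q R0Q013.q166_0) (q_cons (Vale.Agent.P032.Lt.q R0Q013.q166_1) (q_cons (Vale.Agent.P032.Lt.q R0Q013.q166_2) (q_cons (Vale.Agent.P032.Lt.q R0Q013.q166_3) (q_cons (Vale.Agent.P032.Lt.q R0Q013.q166_4) (q_cons (Vale.Agent.P032.Lt.q R0Q013.q166_5) (q_cons (Vale.Agent.P032.Lt.q R0Q013.q166_6) (q_cons (Vale.Agent.P032.Lt.q R0Q013.q166_7) (q_cons (Vale.Agent.P032.Lt.q R0Q013.q166_8) (q_cons (Vale.Agent.P032.Lt.q R0Q013.q166_9) (q_cons (Vale.Agent.P032.Lt.q R0Q013.q166_10) (q_cons (Vale.Agent.P032.Lt.q R0Q013.q166_11) (q_cons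 (Vale.Agent.P032.Lt.q R0Q013.q166_12) (q_cons (Vale.Agent.P032.Lt.q R0Q013.q166_13) (q_cons (Vale.Agent.P032.Lt.q R0Q013.q166_14) (q_cons (Vale.Agent.P032.Lt.q R0Q013.q166_15) (q_cons (Vale.Agent.P032.Lt.q R0Q013.q166_16) (q_cons (Vale.Agent.P032.Lt.q R0Q013.q166_17) (q_cons (Vale.Agent.P032.Lt.q R0Q013.q166_18) (q_cons (Vale.Agent.P032.Lt.q R0Q013.q166_19) (q_cons (Vale.Agent.P032.Lt.q R0Q013.q166_20) (q_cons (Vale.Agent.P032.Lt.q R0Q013.q166_21) (q_cons (Vale.Agent.P032.Lt.q R0Q013.q166_22) (q_cons (Vale.Agent.P032.Lt.q R0Q013.q166_23) (q_cons (Vale.Agent.P032.Lt.q R0Q013.q166_24) (q_cons (Vale.Agent.P032.Lt.q R0Q013.q166_25) q_nil))))))))))))))))))))))))))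

theorem p167 : Pat 73 73 TBm TCm E R0Q013.P167 R0Q013.I167 := pat_step (by decide +kernel) (q_cons (Vale.Agent.P032.Lt.q R0Q013.q167_0) (q_cons (Vale.Agent.P032.Lt.q R0Q013.q167_1) (q_cons (Vale.Agent.P032.Lt.q R0Q013.q167_2) (q_cons (Vale.Agent.P032.Lt.q R0Q013.q167_3) q_nil))))

theorem p168 : Pat 73 73 TBm TCm E R0Q013.P168 R0Q013.I168 := pat_step (by decide +kernel) (q_cons (Vale.Agent.P032.Lt.q R0Q013.q168_0) (q_cons (Vale.Agent.P032.Lt.q R0Q013.q168_1) (q_cons (Vale.Agent.P032.Lt.q R0Q013.q168_2) q_nil)))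

theorem p169 : Pat 73 73 TBm TCm E R0Q013.P169 R0Q013.I169 := pat_step (by decide +kernel) (q_cons (Vale.Agent.P032.Lt.q R0Q013.q169_0) (q_cons (Vale.Agent.P032.Lt.q R0Q013.q169_1) q_nil))

theorem p170 : Pat 73 73 TBm TCm E R0Q013.P170 R0Q013.I170 := pat_step (by decide +kernel) (q_cons (Vale.Agent.P032.Lt.q R0Q013.q170_0) (q_cons (Vale.Agent.P032.Lt.q R0Q013.q170_1) (q_cons (Vale.Agent.P032.Lt.q R0Q013.q170_2) q_nil)))

theorem p171 : Pat 73 73 TBm TCm E R0Q013.P171 R0Q013.I171 := pat_step (by decide +kernel) (q_cons (Vale.Agent.P032.Lt.q R0Q013.q171_0) (q_cons (Vale.Agent.P032.Lt.q R0Q013.q171_1) (q_cons (Vale.Agent.P032.Lt.q R0Q013.q171_2) (q_cons (Vale.Agent.P032.Lt.q R0Q013.q171_3) (q_cons (Vale.Agent.P032.Lt.q R0Q013.q171_4) q_nil)))))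

theorem p172 : Pat 73 73 TBm TCm E R0Q013.P172 R0Q013.I172 := pat_step (by decide +kernel) (q_cons (Vale.Agent.P032.Lt.q R0Q013.q172_0) (q_cons (Vale.Agent.P032.Lt.q R0Q013.q172_1) (q_cons (Vale.Agent.P032.Lt.q R0Q013.q172_2) q_nil)))

theorem p173 : Pat 73 73 TBm TCm E R0Q013.P173 R0Q013.I173 := pat_step (by decide +kernel) (q_cons (Vale.Agent.P032.Lt.q R0Q013.q173_0) (q_cons (Vale.Agent.P032.Lt.q R0Q013.q173_1) (q_cons (Vale.Agent.P032.Lt.q R0Q013.q173_2) (q_cons (Vale.Agent.P032.Lt.q R0Q013.q173_3) (q_cons (Vale.Agent.P032.Lt.q R0Q013.q173_4) q_nil)))))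

theorem p174 : Pat 73 73 TBm TCm E R0Q013.P174 R0Q013.I174 := pat_step (by decide +kernel) (q_cons (Vale.Agent.P032.Lt.q R0Q013.q174_0) (q_cons (Vale.Agent.P032.Lt.q R0Q013.q174_1) (q_cons (Vale.Agent.P032.Lt.q R0Q013.q174_2) (q_cons (Vale.Agent.P032.Lt.q R0Q013.q174_3) (q_cons (Vale.Agent.P032.Lt.q R0Q013.q174_4) (q_cons (Vale.Agent.P032.Lt.q R0Q013.q174_5) (q_cons (Vale.Agent.P032.Lt.q R0Q013.q174_6) (q_cons (Vale.Agent.P032.Lt.q R0Q013.q174_7) (q_cons (Vale.Agent.P032.Lt.q R0Q013.q174_8) q_nil)))))))))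

theorem p175 : Pat 73 73 TBm TCm E R0Q013.P175 R0Q013.I175 := pat_step (by decide +kernel) (q_cons (Vale.Agent.P032.Lt.q R0Q013.q175_0) (q_cons (Vale.Agent.P032.Lt.q R0Q013.q175_1) (q_cons (Vale.Agent.P032.Lt.q R0Q013.q175_2) (q_cons (Vale.Agent.P032.Lt.q R0Q013.q175_3) (q_cons (Vale.Agent.P032.Lt.q R0Q013.q175_4) (q_cons (Vale.Agent.P032.Lt.q R0Q013.q175_5) (q_cons (Vale.Agent.P032.Lt.q R0Q013.q175_6) (q_cons (Vale.Agent.P032.Lt.q R0Q013.q175_7) (q_cons (Vale.Agent.P032.Lt.q R0Q013.q175_8) (q_cons (Vale.Agent.P032.Lt.q R0Q013.q175_9) q_nil))))))))))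

theorem p176 : Pat 73 73 TBm TCm E R0Q013.P176 R0Q013.I176 := pat_step (by decide +kernel) (q_cons (Vale.Agent.P032.Lt.q R0Q013.q176_0) (q_cons (Vale.Agent.P032.Lt.q R0Q013.q176_1) (q_cons (Vale.Agent.P032.Lt.q R0Q013.q176_2) (q_cons (Vale.Agent.P032.Lt.q R0Q013.q176_3) (q_cons (Vale.Agent.P032.Lt.q R0Q013.q176_4) (q_cons (Vale.Agent.P032.Lt.q R0Q013.q176_5) (q_cons (Vale.Agent.P032.Lt.q R0Q013.q176_6) q_nil)))))))

theorem p177 : Pat 73 73 TBm TCm E R0Q013.P177 R0Q013.I177 := pat_step (by decide +kernel) (q_cons (Vale.Agent.P032.Lt.q R0Q013.q177_0) (q_cons (Vale.Agent.P032.Lt.q R0Q013.q177_1) (q_cons (Vale.Agent.P032.Lt.q R0Q013.q177_2) (q_cons (Vale.Agent.P032.Lt.q R0Q013.q177_3) (q_cons (Vale.Agent.P032.Lt.q R0Q013.q177_4) (q_cons (Vale.Agent.P032.Lt.q R0Q013.q177_5) q_nil))))))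

theorem p178 : Pat 73 73 TBm TCm E R0Q014.P178 R0Q014.I178 := pat_step (by decide +kernel) (q_cons (Vale.Agent.P032.Lt.q R0Q014.q178_0) (q_cons (Vale.Agent.P032.Lt.q R0Q014.q178_1) (q_cons (Vale.Agent.P032.Lt.q R0Q014.q178_2) (q_cons (Vale.Agent.P032.Lt.q R0Q014.q178_3) (q_cons (Vale.Agent.P032.Lt.q R0Q014.q178_4) (q_cons (Vale.Agent.P032.Lt.q R0Q014.q178_5) (q_cons (Vale.Agent.P032.Lt.q R0Q014.q178_6) (q_cons (Vale.Agent.P032.Lt.q R0Q014.q178_7) (q_cons (Vale.Agent.P032.Lt.q R0Q014.q178_8) q_nil)))))))))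

theorem p179 : Pat 73 73 TBm TCm E R0Q014.P179 R0Q014.I179 := pat_step (by decide +kernel) (q_cons (Vale.Agent.P032.Lt.q R0Q014.q179_0) q_nil)

theorem p180 : Pat 73 73 TBm TCm E R0Q014.P180 R0Q014.I180 := pat_step (by decide +kernel) (q_cons (Vale.Agent.P032.Lt.q R0Q014.q180_0) (q_cons (Vale.Agent.P032.Lt.q R0Q014.q180_1) (q_cons (Vale.Agent.P032.Lt.q R0Q014.q180_2) (q_cons (Vale.Agent.P032.Lt.q R0Q014.q180_3) (q_cons (Vale.Agent.P032.Lt.q R0Q014.q180_4) (q_cons (Vale.Agent.P032.Lt.q R0Q014.q180_5) (q_cons (Vale.Agent.P032.Lt.q R0Q014.q180_6) (q_cons (Vale.Agent.P032.Lt.q R0Q014.q180_7) (q_cons (Vale.Agent.P032.Lt.q R0Q014.q180_8) (q_cons (Vale.Agent.P032.Lt.q R0Q014.q180_9) (q_cons (Vale.Agent.P032.Lt.q R0Q014.q180_10) (q_cons (Vale.Agent.P032.Lt.q R0Q014.q180_11) (q_cons (Vale.Agent.P032.Lt.q R0Q014.q180_12) (q_cons (Vale.Agent.P032.Lt.q R0Q014.q180_13) (q_cons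 (Vale.Agent.P032.Lt.q R0Q014.q180_14) (q_cons (Vale.Agent.P032.Lt.q R0Q014.q180_15) q_nil))))))))))))))))

theorem p181 : Pat 73 73 TBm TCm E R0Q014.P181 R0Q014.I181 := pat_step (by decide +kernel) (q_cons (Vale.Agent.P032.Lt.q R0Q014.q181_0) (q_cons (Vale.Agent.P032.Lt.q R0Q014.q181_1) (q_cons (Vale.Agent.P032.Lt.q R0Q014.q181_2) (q_cons (Vale.Agent.P032.Lt.q R0Q014.q181_3) (q_cons (Vale.Agent.P032.Lt.q R0Q014.q181_4) (q_cons (Vale.Agent.P032.Lt.q R0Q014.q181_5) (q_cons (Vale.Agent.P032.Lt.q R0Q014.q181_6) (q_cons (Vale.Agent.P032.Lt.q R0Q014.q181_7) q_nil))))))))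

theorem p182 : Pat 73 73 TBm TCm E R0Q014.P182 R0Q014.I182 := pat_step (by decide +kernel) (q_cons (Vale.Agent.P032.Lt.q R0Q014.q182_0) (q_cons (Vale.Agent.P032.Lt.q R0Q014.q182_1) (q_cons (Vale.Agent.P032.Lt.q R0Q014.q182_2) (q_cons (Vale.Agent.P032.Lt.q R0Q014.q182_3) (q_cons (Vale.Agent.P032.Lt.q R0Q014.q182_4) (q_cons (Vale.Agent.P032.Lt.q R0Q014.q182_5) (q_cons (Vale.Agent.P032.Lt.q R0Q014.q182_6) (q_cons (Vale.Agent.P032.Lt.q R0Q014.q182_7) (q_cons (Vale.Agent.P032.Lt.q R0Q014.q182_8) (q_cons (Vale.Agent.P032.Lt.q R0Q014.q182_9) q_nil))))))))))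

theorem p183 : Pat 73 73 TBm TCm E R0Q014.P183 R0Q014.I183 := pat_step (by decide +kernel) (q_cons (Vale.Agent.P032.Lt.q R0Q014.q183_0) q_nil)

theorem p184 : Pat 73 73 TBm TCm E R0Q014.P184 R0Q014.I184 := pat_step (by decide +kernel) (q_cons (Vale.Agent.P032.Lt.q R0Q014.q184_0) q_nil)

theorem p185 : Pat 73 73 TBm TCm E R0Q014.P185 R0Q014.I185 := pat_step (by decide +kernel) (q_cons (Vale.Agent.P032.Lt.q R0Q014.q185_0) (q_cons (Vale.Agent.P032.Lt.q R0Q014.q185_1) (q_cons (Vale.Agent.P032.Lt.q R0Q014.q185_2) (q_cons (Vale.Agent.P032.Lt.q R0Q014.q185_3) q_nil))))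

theorem p186 : Pat 73 73 TBm TCm E R0Q014.P186 R0Q014.I186 := pat_step (by decide +kernel) (q_cons (Vale.Agent.P032.Lt.q R0Q014.q186_0) (q_cons (Vale.Agent.P032.Lt.q R0Q014.q186_1) (q_cons (Vale.Agent.P032.Lt.q R0Q014.q186_2) q_nil)))

theorem p187 : Pat 73 73 TBm TCm E R0Q014.P187 R0Q014.I187 := pat_step (by decide +kernel) (q_cons (Vale.Agent.P032.Lt.q R0Q014.q187_0) q_nil)

theorem p188 : Pat 73 73 TBm TCm E R0Q015.P188 R0Q015.I188 := pat_step (by decide +kernel) (q_cons (Vale.Agent.P032.Lt.q R0Q015.q188_0) q_nil)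

theorem p189 : Pat 73 73 TBm TCm E R0Q015.P189 R0Q015.I189 := pat_step (by decide +kernel) (q_cons (Vale.Agent.P032.Lt.q R0Q015.q189_0) q_nil)

theorem p190 : Pat 73 73 TBm TCm E R0Q015.P190 R0Q015.I190 := pat_step (by decide +kernel) (q_cons (Vale.Agent.P032.Lt.q R0Q015.q190_0) q_nil)

theorem p191 : Pat 73 73 TBm TCm E R0Q015.P191 R0Q015.I191 := pat_step (by decide +kernel) (q_cons (Vale.Agent.P032.Lt.q R0Q015.q191_0) (q_cons (Vale.Agent.P032.Lt.q R0Q015.q191_1) (q_cons (Vale.Agent.P032.Lt.q R0Q015.q191_2) (q_cons (Vale.Agent.P032.Lt.q R0Q015.q191_3) (q_cons (Vale.Agent.P032.Lt.q R0Q015.q191_4) (q_cons (Vale.Agent.P032.Lt.q R0Q015.q191_5) (q_cons (Vale.Agent.P032.Lt.q R0Q015.q191_6) (q_cons (Vale.Agent.P032.Lt.q R0Q015.q191_7) (q_cons (Vale.Agent.P032.Lt.q R0Q015.q191_8) (q_cons (Vale.Agent.P032.Lt.q R0Q015.q191_9) (q_cons (Vale.Agent.P032.Lt.q R0Q015.q191_10)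 (q_cons (Vale.Agent.P032.Lt.q R0Q015.q191_11) (q_cons (Vale.Agent.P032.Lt.q R0Q015.q191_12) (q_cons (Vale.Agent.P032.Lt.q R0Q015.q191_13) (q_cons (Vale.Agent.P032.Lt.q R0Q015.q191_14) (q_cons (Vale.Agent.P032.Lt.q R0Q015.q191_15) (q_cons (Vale.Agent.P032.Lt.q R0Q015.q191_16) (q_cons (Vale.Agent.P032.Lt.q R0Q015.q191_17) (q_cons (Vale.Agent.P032.Lt.q R0Q015.q191_18) (q_cons (Vale.Agent.P032.Lt.q R0Q015.q191_19) (q_cons (Vale.Agent.P032.Lt.q R0Q015.q191_20) (q_cons (Vale.Agent.P032.Lt.q R0Q015.q191_21) (q_cons (Vale.Agent.P032.Lt.q R0Q015.q191_22) (q_cons (Vale.Agent.P032.Lt.q R0Q015.q191_23) q_nil))))))))))))))))))))))))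

theorem p192 : Pat 73 73 TBm TCm E R0Q015.P192 R0Q015.I192 := pat_step (by decide +kernel) (q_cons (Vale.Agent.P032.Lt.q R0Q015.q192_0) q_nil)

theorem p193 : Pat 73 73 TBm TCm E R0Q015.P193 R0Q015.I193 := pat_step (by decide +kernel) (q_cons (Vale.Agent.P032.Lt.q R0Q015.q193_0) q_nil)

theorem p194 : Pat 73 73 TBm TCm E R0Q015.P194 R0Q015.I194 := pat_step (by decide +kernel) (q_cons (Vale.Agent.P032.Lt.q R0Q015.q194_0) q_nil)

theorem p195 : Pat 73 73 TBm TCm E R0Q015.P195 R0Q015.I195 := pat_step (by decide +kernel) (q_cons (Vale.Agent.P032.Lt.q R0Q015.q195_0) (q_cons (Vale.Agent.P032.Lt.q R0Q015.q195_1) (q_cons (Vale.Agent.P032.Lt.q R0Q015.q195_2) (q_cons (Vale.Agent.P032.Lt.q R0Q015.q195_3) (q_cons (Vale.Agent.P032.Lt.q R0Q015.q195_4) (q_cons (Vale.Agent.P032.Lt.q R0Q015.q195_5) (q_cons (Vale.Agent.P032.Lt.q R0Q015.q195_6) (q_cons (Vale.Agent.P032.Lt.q R0Q015.q195_7)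 (q_cons (Vale.Agent.P032.Lt.q R0Q015.q195_8) (q_cons (Vale.Agent.P032.Lt.q R0Q015.q195_9) (q_cons (Vale.Agent.P032.Lt.q R0Q015.q195_10) (q_cons (Vale.Agent.P032.Lt.q R0Q015.q195_11) (q_cons (Vale.Agent.P032.Lt.q R0Q015.q195_12) (q_cons (Vale.Agent.P032.Lt.q R0Q015.q195_13) (q_cons (Vale.Agent.P032.Lt.q R0Q015.q195_14) q_nil)))))))))))))))

theorem p196 : Pat 73 73 TBm TCm E R0Q016.P196 R0Q016.I196 := pat_step (by decide +kernel) (q_cons (Vale.Agent.P032.Lt.q R0Q016.q196_0) (q_cons (Vale.Agent.P032.Lt.q R0Q016.q196_1) (q_cons (Vale.Agent.P032.Lt.q R0Q016.q196_2) (q_cons (Vale.Agent.P032.Lt.q R0Q016.q196_3) (q_cons (Vale.Agent.P032.Lt.q R0Q016.q196_4) (q_cons (Vale.Agent.P032.Lt.q R0Q016.q196_5) q_nil))))))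

theorem p197 : Pat 73 73 TBm TCm E R0Q016.P197 R0Q016.I197 := pat_step (by decide +kernel) (q_cons (Vale.Agent.P032.Lt.q R0Q016.q197_0) (q_cons (Vale.Agent.P032.Lt.q R0Q016.q197_1) (q_cons (Vale.Agent.P032.Lt.q R0Q016.q197_2) (q_cons (Vale.Agent.P032.Lt.q R0Q016.q197_3) q_nil))))

theorem p198 : Pat 73 73 TBm TCm E R0Q016.P198 R0Q016.I198 := pat_step (by decide +kernel) (q_cons (Vale.Agent.P032.Lt.q R0Q016.q198_0) (q_cons (Vale.Agent.P032.Lt.q R0Q016.q198_1) q_nil))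

theorem p199 : Pat 73 73 TBm TCm E R0Q016.P199 R0Q016.I199 := pat_step (by decide +kernel) (q_cons (Vale.Agent.P032.Lt.q R0Q016.q199_0) q_nil)

theorem p200 : Pat 73 73 TBm TCm E R0Q016.P200 R0Q016.I200 := pat_step (by decide +kernel) (q_cons (Vale.Agent.P032.Lt.q R0Q016.q200_0) q_nil)

theorem p201 : Pat 73 73 TBm TCm E R0Q016.P201 R0Q016.I201 := pat_step (by decide +kernel) (q_cons (Vale.Agent.P032.Lt.q R0Q016.q201_0) (q_cons (Vale.Agent.P032.Lt.q R0Q016.q201_1) q_nil))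

theorem p202 : Pat 73 73 TBm TCm E R0Q016.P202 R0Q016.I202 := pat_step (by decide +kernel) (q_cons (Vale.Agent.P032.Lt.q R0Q016.q202_0) (q_cons (Vale.Agent.P032.Lt.q R0Q016.q202_1) q_nil))

theorem p203 : Pat 73 73 TBm TCm E R0Q016.P203 R0Q016.I203 := pat_step (by decide +kernel) (q_cons (Vale.Agent.P032.Lt.q R0Q016.q203_0) (q_cons (Vale.Agent.P032.Lt.q R0Q016.q203_1) (q_cons (Vale.Agent.P032.Lt.q R0Q016.q203_2) q_nil)))

theorem p204 : Pat 73 73 TBm TCm E R0Q016.P204 R0Q016.I204 := pat_step (by decide +kernel) (q_cons (Vale.Agent.P032.Lt.q R0Q016.q204_0) (q_cons (Vale.Agent.P032.Lt.q R0Q016.q204_1) (q_cons (Vale.Agent.P032.Lt.q R0Q016.q204_2) q_nil)))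

theorem p205 : Pat 73 73 TBm TCm E R0Q016.P205 R0Q016.I205 := pat_step (by decide +kernel) (q_cons (Vale.Agent.P032.Lt.q R0Q016.q205_0) (q_cons (Vale.Agent.P032.Lt.q R0Q016.q205_1) (q_cons (Vale.Agent.P032.Lt.q R0Q016.q205_2) q_nil)))

theorem p206 : Pat 73 73 TBm TCm E R0Q016.P206 R0Q016.I206 := pat_step (by decide +kernel) (q_cons (Vale.Agent.P032.Lt.q R0Q016.q206_0) (q_cons (Vale.Agent.P032.Lt.q R0Q016.q206_1) (q_cons (Vale.Agent.P032.Lt.q R0Q016.q206_2) q_nil)))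

theorem p207 : Pat 73 73 TBm TCm E R0Q016.P207 R0Q016.I207 := pat_step (by decide +kernel) (q_cons (Vale.Agent.P032.Lt.q R0Q016.q207_0) (q_cons (Vale.Agent.P032.Lt.q R0Q016.q207_1) (q_cons (Vale.Agent.P032.Lt.q R0Q016.q207_2) (q_cons (Vale.Agent.P032.Lt.q R0Q016.q207_3) (q_cons (Vale.Agent.P032.Lt.q R0Q016.q207_4) (q_cons (Vale.Agent.P032.Lt.q R0Q016.q207_5) q_nil))))))

theorem p208 : Pat 73 73 TBm TCm E R0Q016.P208 R0Q016.I208 := pat_step (by decide +kernel) (q_cons (Vale.Agent.P032.Lt.q R0Q016.q208_0) (q_cons (Vale.Agent.P032.Lt.q R0Q016.q208_1) (q_cons (Vale.Agent.P032.Lt.q R0Q016.q208_2) q_nil)))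

theorem p209 : Pat 73 73 TBm TCm E R0Q016.P209 R0Q016.I209 := pat_step (by decide +kernel) (q_cons (Vale.Agent.P032.Lt.q R0Q016.q209_0) (q_cons (Vale.Agent.P032.Lt.q R0Q016.q209_1) (q_cons (Vale.Agent.P032.Lt.q R0Q016.q209_2) (q_cons (Vale.Agent.P032.Lt.q R0Q016.q209_3) (q_cons (Vale.Agent.P032.Lt.q R0Q016.q209_4) q_nil)))))

theorem p210 : Pat 73 73 TBm TCm E R0Q016.P210 R0Q016.I210 := pat_step (by decide +kernel) (q_cons (Vale.Agent.P032.Lt.q R0Q016.q210_0) (q_cons (Vale.Agent.P032.Lt.q R0Q016.q210_1) q_nil))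

theorem p211 : Pat 73 73 TBm TCm E R0Q016.P211 R0Q016.I211 := pat_step (by decide +kernel) (q_cons (Vale.Agent.P032.Lt.q R0Q016.q211_0) (q_cons (Vale.Agent.P032.Lt.q R0Q016.q211_1) q_nil))

theorem p212 : Pat 73 73 TBm TCm E R0Q016.P212 R0Q016.I212 := pat_step (by decide +kernel) (q_cons (Vale.Agent.P032.Lt.q R0Q016.q212_0) (q_cons (Vale.Agent.P032.Lt.q R0Q016.q212_1) q_nil))

theorem p213 : Pat 73 73 TBm TCm E R0Q016.P213 R0Q016.I213 := pat_step (by decide +kernel) (q_cons (Vale.Agent.P032.Lt.q R0Q016.q213_0) (q_cons (Vale.Agent.P032.Lt.q R0Q016.q213_1) q_nil))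

theorem p214 : Pat 73 73 TBm TCm E R0Q016.P214 R0Q016.I214 := pat_step (by decide +kernel) (q_cons (Vale.Agent.P032.Lt.q R0Q016.q214_0) q_nil)

theorem p215 : Pat 73 73 TBm TCm E R0Q016.P215 R0Q016.I215 := pat_step (by decide +kernel) (q_cons (Vale.Agent.P032.Lt.q R0Q016.q215_0) (q_cons (Vale.Agent.P032.Lt.q R0Q016.q215_1) q_nil))

theorem p216 : Pat 73 73 TBm TCm E R0Q016.P216 R0Q016.I216 := pat_step (by decide +kernel) (q_cons (Vale.Agent.P032.Lt.q R0Q016.q216_0) (q_cons (Vale.Agent.P032.Lt.q R0Q016.q216_1) q_nil))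

theorem p217 : Pat 73 73 TBm TCm E R0Q017.P217 R0Q017.I217 := pat_step (by decide +kernel) (q_cons (Vale.Agent.P032.Lt.q R0Q017.q217_0) (q_cons (Vale.Agent.P032.Lt.q R0Q017.q217_1) (q_cons (Vale.Agent.P032.Lt.q R0Q017.q217_2) (q_cons (Vale.Agent.P032.Lt.q R0Q017.q217_3) (q_cons (Vale.Agent.P032.Lt.q R0Q017.q217_4) (q_cons (Vale.Agent.P032.Lt.q R0Q017.q217_5) (q_cons (Vale.Agent.P032.Lt.q R0Q017.q217_6) (q_cons (Vale.Agent.P032.Lt.q R0Q017.q217_7) (q_cons (Vale.Agent.P032.Lt.q R0Q017.q217_8) q_nil)))))))))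

theorem p218 : Pat 73 73 TBm TCm E R0Q017.P218 R0Q017.I218 := pat_step (by decide +kernel) (q_cons (Vale.Agent.P032.Lt.q R0Q017.q218_0) (q_cons (Vale.Agent.P032.Lt.q R0Q017.q218_1) (q_cons (Vale.Agent.P032.Lt.q R0Q017.q218_2) (q_cons (Vale.Agent.P032.Lt.q R0Q017.q218_3) (q_cons (Vale.Agent.P032.Lt.q R0Q017.q218_4) (q_cons (Vale.Agent.P032.Lt.q R0Q017.q218_5) (q_cons (Vale.Agent.P032.Lt.q R0Q017.q218_6) (q_cons (Vale.Agent.P032.Lt.q R0Q017.q218_7) (q_cons (Vale.Agent.P032.Lt.q R0Q017.q218_8) (q_cons (Vale.Agent.P032.Lt.q R0Q017.q218_9) (q_cons (Vale.Agent.P032.Lt.q R0Q017.q218_10) q_nil)))))))))))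

theorem p219 : Pat 73 73 TBm TCm E R0Q017.P219 R0Q017.I219 := pat_step (by decide +kernel) (q_cons (Vale.Agent.P032.Lt.q R0Q017.q219_0) (q_cons (Vale.Agent.P032.Lt.q R0Q017.q219_1) q_nil))

theorem p220 : Pat 73 73 TBm TCm E R0Q017.P220 R0Q017.I220 := pat_step (by decide +kernel) (q_cons (Vale.Agent.P032.Lt.q R0Q017.q220_0) (q_cons (Vale.Agent.P032.Lt.q R0Q017.q220_1) (q_cons (Vale.Agent.P032.Lt.q R0Q017.q220_2) (q_cons (Vale.Agent.P032.Lt.q R0Q017.q220_3) (q_cons (Vale.Agent.P032.Lt.q R0Q017.q220_4) q_nil)))))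

theorem p221 : Pat 73 73 TBm TCm E R0Q017.P221 R0Q017.I221 := pat_step (by decide +kernel) (q_cons (Vale.Agent.P032.Lt.q R0Q017.q221_0) (q_cons (Vale.Agent.P032.Lt.q R0Q017.q221_1) (q_cons (Vale.Agent.P032.Lt.q R0Q017.q221_2) (q_cons (Vale.Agent.P032.Lt.q R0Q017.q221_3) (q_cons (Vale.Agent.P032.Lt.q R0Q017.q221_4) (q_cons (Vale.Agent.P032.Lt.q R0Q017.q221_5) q_nil))))))

theorem p222 : Pat 73 73 TBm TCm E R0Q017.P222 R0Q017.I222 := pat_step (by decide +kernel) (q_cons (Vale.Agent.P032.Lt.q R0Q017.q222_0) (q_cons (Vale.Agent.P032.Lt.q R0Q017.q222_1) q_nil))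

theorem p223 : Pat 73 73 TBm TCm E R0Q017.P223 R0Q017.I223 := pat_step (by decide +kernel) (q_cons (Vale.Agent.P032.Lt.q R0Q017.q223_0) (q_cons (Vale.Agent.P032.Lt.q R0Q017.q223_1) (q_cons (Vale.Agent.P032.Lt.q R0Q017.q223_2) q_nil)))

theorem p224 : Pat 73 73 TBm TCm E R0Q017.P224 R0Q017.I224 := pat_step (by decide +kernel) (q_cons (Vale.Agent.P032.Lt.q R0Q017.q224_0) (q_cons (Vale.Agent.P032.Lt.q R0Q017.q224_1) q_nil))

theorem p225 : Pat 73 73 TBm TCm E R0Q017.P225 R0Q017.I225 := pat_step (by decide +kernel) (q_cons (Vale.Agent.P032.Lt.q R0Q017.q225_0) q_nil)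

theorem p226 : Pat 73 73 TBm TCm E R0Q017.P226 R0Q017.I226 := pat_step (by decide +kernel) (q_cons (Vale.Agent.P032.Lt.q R0Q017.q226_0) (q_cons (Vale.Agent.P032.Lt.q R0Q017.q226_1) (q_cons (Vale.Agent.P032.Lt.q R0Q017.q226_2) (q_cons (Vale.Agent.P032.Lt.q R0Q017.q226_3) (q_cons (Vale.Agent.P032.Lt.q R0Q017.q226_4) (q_cons (Vale.Agent.P032.Lt.q R0Q017.q226_5) (q_cons (Vale.Agent.P032.Lt.q R0Q017.q226_6) (q_cons (Vale.Agent.P032.Lt.q R0Q017.q226_7) q_nil))))))))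

theorem p227 : Pat 73 73 TBm TCm E R0Q017.P227 R0Q017.I227 := pat_step (by decide +kernel) (q_cons (Vale.Agent.P032.Lt.q R0Q017.q227_0) (q_cons (Vale.Agent.P032.Lt.q R0Q017.q227_1) (q_cons (Vale.Agent.P032.Lt.q R0Q017.q227_2) (q_cons (Vale.Agent.P032.Lt.q R0Q017.q227_3) q_nil))))

theorem p228 : Pat 73 73 TBm TCm E R0Q017.P228 R0Q017.I228 := pat_step (by decide +kernel) (q_cons (Vale.Agent.P032.Lt.q R0Q017.q228_0) (q_cons (Vale.Agent.P032.Lt.q R0Q017.q228_1) (q_cons (Vale.Agent.P032.Lt.q R0Q017.q228_2) (q_cons (Vale.Agent.P032.Lt.q R0Q017.q228_3) (q_cons (Vale.Agent.P032.Lt.q R0Q017.q228_4) (q_cons (Vale.Agent.P032.Lt.q R0Q017.q228_5) (q_cons (Vale.Agent.P032.Lt.q R0Q017.q228_6) (q_cons (Vale.Agent.P032.Lt.q R0Q017.q228_7) (q_cons (Vale.Agent.P032.Lt.q R0Q017.q228_8) (q_cons (Vale.Agent.P032.Lt.q R0Q017.q228_9) (q_cons (Vale.Agent.P032.Lt.q R0Q017.q228_10) (q_cons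 (Vale.Agent.P032.Lt.q R0Q017.q228_11) (q_cons (Vale.Agent.P032.Lt.q R0Q017.q228_12) q_nil)))))))))))))

theorem p229 : Pat 73 73 TBm TCm E R0Q017.P229 R0Q017.I229 := pat_step (by decide +kernel) (q_cons (Vale.Agent.P032.Lt.q R0Q017.q229_0) q_nil)

theorem p230 : Pat 73 73 TBm TCm E R0Q018.P230 R0Q018.I230 := pat_step (by decide +kernel) (q_cons (Vale.Agent.P032.Lt.q R0Q018.q230_0) (q_cons (Vale.Agent.P032.Lt.q R0Q018.q230_1) (q_cons (Vale.Agent.P032.Lt.q R0Q018.q230_2) (q_cons (Vale.Agent.P032.Lt.q R0Q018.q230_3) (q_cons (Vale.Agent.P032.Lt.q R0Q018.q230_4) (q_cons (Vale.Agent.P032.Lt.q R0Q018.q230_5) (q_cons (Vale.Agent.P032.Lt.q R0Q018.q230_6) (q_cons (Vale.Agent.P032.Lt.q R0Q018.q230_7) (q_cons (Vale.Agent.P032.Lt.q R0Q018.q230_8) (q_cons (Vale.Agent.P032.Lt.q R0Q018.q230_9) q_nil))))))))))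

theorem p231 : Pat 73 73 TBm TCm E R0Q018.P231 R0Q018.I231 := pat_step (by decide +kernel) (q_cons (Vale.Agent.P032.Lt.q R0Q018.q231_0) (q_cons (Vale.Agent.P032.Lt.q R0Q018.q231_1) (q_cons (Vale.Agent.P032.Lt.q R0Q018.q231_2) (q_cons (Vale.Agent.P032.Lt.q R0Q018.q231_3) (q_cons (Vale.Agent.P032.Lt.q R0Q018.q231_4) (q_cons (Vale.Agent.P032.Lt.q R0Q018.q231_5) (q_cons (Vale.Agent.P032.Lt.q R0Q018.q231_6) (q_cons (Vale.Agent.P032.Lt.q R0Q018.q231_7) (q_cons (Vale.Agent.P032.Lt.q R0Q018.q231_8) q_nil)))))))))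

theorem p232 : Pat 73 73 TBm TCm E R0Q018.P232 R0Q018.I232 := pat_step (by decide +kernel) (q_cons (Vale.Agent.P032.Lt.q R0Q018.q232_0) (q_cons (Vale.Agent.P032.Lt.q R0Q018.q232_1) (q_cons (Vale.Agent.P032.Lt.q R0Q018.q232_2) (q_cons (Vale.Agent.P032.Lt.q R0Q018.q232_3) (q_cons (Vale.Agent.P032.Lt.q R0Q018.q232_4) q_nil)))))

theorem p233 : Pat 73 73 TBm TCm E R0Q018.P233 R0Q018.I233 := pat_step (by decide +kernel) (q_cons (Vale.Agent.P032.Lt.q R0Q018.q233_0) (q_cons (Vale.Agent.P032.Lt.q R0Q018.q233_1) (q_cons (Vale.Agent.P032.Lt.q R0Q018.q233_2) q_nil)))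

theorem p234 : Pat 73 73 TBm TCm E R0Q018.P234 R0Q018.I234 := pat_step (by decide +kernel) (q_cons (Vale.Agent.P032.Lt.q R0Q018.q234_0) (q_cons (Vale.Agent.P032.Lt.q R0Q018.q234_1) (q_cons (Vale.Agent.P032.Lt.q R0Q018.q234_2) (q_cons (Vale.Agent.P032.Lt.q R0Q018.q234_3) (q_cons (Vale.Agent.P032.Lt.q R0Q018.q234_4) q_nil)))))

theorem p235 : Pat 73 73 TBm TCm E R0Q018.P235 R0Q018.I235 := pat_step (by decide +kernel) (q_cons (Vale.Agent.P032.Lt.q R0Q018.q235_0) (q_cons (Vale.Agent.P032.Lt.q R0Q018.q235_1) (q_cons (Vale.Agent.P032.Lt.q R0Q018.q235_2) q_nil)))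

theorem p236 : Pat 73 73 TBm TCm E R0Q018.P236 R0Q018.I236 := pat_step (by decide +kernel) (q_cons (Vale.Agent.P032.Lt.q R0Q018.q236_0) (q_cons (Vale.Agent.P032.Lt.q R0Q018.q236_1) (q_cons (Vale.Agent.P032.Lt.q R0Q018.q236_2) (q_cons (Vale.Agent.P032.Lt.q R0Q018.q236_3) q_nil))))

theorem p237 : Pat 73 73 TBm TCm E R0Q018.P237 R0Q018.I237 := pat_step (by decide +kernel) (q_cons (Vale.Agent.P032.Lt.q R0Q018.q237_0) (q_cons (Vale.Agent.P032.Lt.q R0Q018.q237_1) (q_cons (Vale.Agent.P032.Lt.q R0Q018.q237_2) (q_cons (Vale.Agent.P032.Lt.q R0Q018.q237_3) (q_cons (Vale.Agent.P032.Lt.q R0Q018.q237_4) q_nil)))))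

theorem p238 : Pat 73 73 TBm TCm E R0Q018.P238 R0Q018.I238 := pat_step (by decide +kernel) (q_cons (Vale.Agent.P032.Lt.q R0Q018.q238_0) (q_cons (Vale.Agent.P032.Lt.q R0Q018.q238_1) q_nil))

theorem p239 : Pat 73 73 TBm TCm E R0Q018.P239 R0Q018.I239 := pat_step (by decide +kernel) (q_cons (Vale.Agent.P032.Lt.q R0Q018.q239_0) (q_cons (Vale.Agent.P032.Lt.q R0Q018.q239_1) (q_cons (Vale.Agent.P032.Lt.q R0Q018.q239_2) (q_cons (Vale.Agent.P032.Lt.q R0Q018.q239_3) (q_cons (Vale.Agent.P032.Lt.q R0Q018.q239_4) q_nil)))))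

theorem p240 : Pat 73 73 TBm TCm E R0Q018.P240 R0Q018.I240 := pat_step (by decide +kernel) (q_cons (Vale.Agent.P032.Lt.q R0Q018.q240_0) (q_cons (Vale.Agent.P032.Lt.q R0Q018.q240_1) (q_cons (Vale.Agent.P032.Lt.q R0Q018.q240_2) (q_cons (Vale.Agent.P032.Lt.q R0Q018.q240_3) (q_cons (Vale.Agent.P032.Lt.q R0Q018.q240_4) q_nil)))))

theorem p241 : Pat 73 73 TBm TCm E R0Q018.P241 R0Q018.I241 := pat_step (by decide +kernel) (q_cons (Vale.Agent.P032.Lt.q R0Q018.q241_0) (q_cons (Vale.Agent.P032.Lt.q R0Q018.q241_1) (q_cons (Vale.Agent.P032.Lt.q R0Q018.q241_2) (q_cons (Vale.Agent.P032.Lt.q R0Q018.q241_3) q_nil))))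

theorem p242 : Pat 73 73 TBm TCm E R0Q018.P242 R0Q018.I242 := pat_step (by decide +kernel) (q_cons (Vale.Agent.P032.Lt.q R0Q018.q242_0) (q_cons (Vale.Agent.P032.Lt.q R0Q018.q242_1) q_nil))

theorem p243 : Pat 73 73 TBm TCm E R0Q018.P243 R0Q018.I243 := pat_step (by decide +kernel) (q_cons (Vale.Agent.P032.Lt.q R0Q018.q243_0) (q_cons (Vale.Agent.P032.Lt.q R0Q018.q243_1) (q_cons (Vale.Agent.P032.Lt.q R0Q018.q243_2) (q_cons (Vale.Agent.P032.Lt.q R0Q018.q243_3) (q_cons (Vale.Agent.P032.Lt.q R0Q018.q243_4) (q_cons (Vale.Agent.P032.Lt.q R0Q018.q243_5) (q_cons (Vale.Agent.P032.Lt.q R0Q018.q243_6) (q_cons (Vale.Agent.P032.Lt.q R0Q018.q243_7) (q_cons (Vale.Agent.P032.Lt.q R0Q018.q243_8) (q_cons (Vale.Agent.P032.Lt.q R0Q018.q243_9) (q_cons (Vale.Agent.P032.Lt.q R0Q018.q243_10) (q_cons (Vale.Agent.P032.Lt.q R0Q018.q243_11) (q_cons (Vale.Agent.P032.Lt.q R0Q018.q243_12) q_nil)))))))))))))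

theorem p244 : Pat 73 73 TBm TCm E R0Q019.P244 R0Q019.I244 := pat_step (by decide +kernel) (q_cons (Vale.Agent.P032.Lt.q R0Q019.q244_0) (q_cons (Vale.Agent.P032.Lt.q R0Q019.q244_1) (q_cons (Vale.Agent.P032.Lt.q R0Q019.q244_2) q_nil)))

theorem p245 : Pat 73 73 TBm TCm E R0Q019.P245 R0Q019.I245 := pat_step (by decide +kernel) (q_cons (Vale.Agent.P032.Lt.q R0Q019.q245_0) (q_cons (Vale.Agent.P032.Lt.q R0Q019.q245_1) q_nil))

theorem p246 : Pat 73 73 TBm TCm E R0Q019.P246 R0Q019.I246 := pat_step (by decide +kernel) (q_cons (Vale.Agent.P032.Lt.q R0Q019.q246_0) (q_cons (Vale.Agent.P032.Lt.q R0Q019.q246_1) (q_cons (Vale.Agent.P032.Lt.q R0Q019.q246_2) (q_cons (Vale.Agent.P032.Lt.q R0Q019.q246_3) (q_cons (Vale.Agent.P032.Lt.q R0Q019.q246_4) q_nil)))))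

theorem p247 : Pat 73 73 TBm TCm E R0Q019.P247 R0Q019.I247 := pat_step (by decide +kernel) (q_cons (Vale.Agent.P032.Lt.q R0Q019.q247_0) (q_cons (Vale.Agent.P032.Lt.q R0Q019.q247_1) (q_cons (Vale.Agent.P032.Lt.q R0Q019.q247_2) (q_cons (Vale.Agent.P032.Lt.q R0Q019.q247_3) (q_cons (Vale.Agent.P032.Lt.q R0Q019.q247_4) (q_cons (Vale.Agent.P032.Lt.q R0Q019.q247_5) (q_cons (Vale.Agent.P032.Lt.q R0Q019.q247_6) q_nil)))))))

theorem p248 : Pat 73 73 TBm TCm E R0Q019.P248 R0Q019.I248 := pat_step (by decide +kernel) (q_cons (Vale.Agent.P032.Lt.q R0Q019.q248_0) (q_cons (Vale.Agent.P032.Lt.q R0Q019.q248_1) (q_cons (Vale.Agent.P032.Lt.q R0Q019.q248_2) (q_cons (Vale.Agent.P032.Lt.q R0Q019.q248_3) (q_cons (Vale.Agent.P032.Lt.q R0Q019.q248_4) (q_cons (Vale.Agent.P032.Lt.q R0Q019.q248_5) q_nil))))))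

theorem p249 : Pat 73 73 TBm TCm E R0Q019.P249 R0Q019.I249 := pat_step (by decide +kernel) (q_cons (Vale.Agent.P032.Lt.q R0Q019.q249_0) (q_cons (Vale.Agent.P032.Lt.q R0Q019.q249_1) (q_cons (Vale.Agent.P032.Lt.q R0Q019.q249_2) (q_cons (Vale.Agent.P032.Lt.q R0Q019.q249_3) (q_cons (Vale.Agent.P032.Lt.q R0Q019.q249_4) (q_cons (Vale.Agent.P032.Lt.q R0Q019.q249_5) (q_cons (Vale.Agent.P032.Lt.q R0Q019.q249_6) (q_cons (Vale.Agent.P032.Lt.q R0Q019.q249_7) (q_cons (Vale.Agent.P032.Lt.q R0Q019.q249_8) (q_cons (Vale.Agent.P032.Lt.q R0Q019.q249_9) (q_cons (Vale.Agent.P032.Lt.q R0Q019.q249_10) (q_cons (Vale.Agent.P032.Lt.q R0Q019.q249_11) (q_cons (Vale.Agent.P032.Lt.q R0Q019.q249_12) (q_cons (Vale.Agent.P032.Lt.q R0Q019.q249_13) (q_cons (Vale.Agent.P032.Lt.q R0Q019.q249_14) (q_cons (Vale.Agent.P032.Lt.q R0Q019.q249_15) q_nil))))))))))))))))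

theorem p250 : Pat 73 73 TBm TCm E R0Q019.P250 R0Q019.I250 := pat_step (by decide +kernel) (q_cons (Vale.Agent.P032.Lt.q R0Q019.q250_0) (q_cons (Vale.Agent.P032.Lt.q R0Q019.q250_1) (q_cons (Vale.Agent.P032.Lt.q R0Q019.q250_2) (q_cons (Vale.Agent.P032.Lt.q R0Q019.q250_3) (q_cons (Vale.Agent.P032.Lt.q R0Q019.q250_4) (q_cons (Vale.Agent.P032.Lt.q R0Q019.q250_5) (q_cons (Vale.Agent.P032.Lt.q R0Q019.q250_6) (q_cons (Vale.Agent.P032.Lt.q R0Q019.q250_7) (q_cons (Vale.Agent.P032.Lt.q R0Q019.q250_8) (q_cons (Vale.Agent.P032.Lt.q R0Q019.q250_9) (q_cons (Vale.Agent.P032.Lt.q R0Q019.q250_10) (q_cons (Vale.Agent.P032.Lt.q R0Q019.q250_11) (q_cons (Vale.Agent.P032.Lt.q R0Q019.q250_12) (q_cons (Vale.Agent.P032.Lt.q R0Q019.q250_13) (q_cons (Vale.Agent.P032.Lt.q R0Q019.q250_14) (q_cons (Vale.Agent.P032.Lt.q R0Q019.q250_15) q_nil))))))))))))))))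

theorem p251 : Pat 73 73 TBm TCm E R0Q019.P251 R0Q019.I251 := pat_step (by decide +kernel) (q_cons (Vale.Agent.P032.Lt.q R0Q019.q251_0) (q_cons (Vale.Agent.P032.Lt.q R0Q019.q251_1) (q_cons (Vale.Agent.P032.Lt.q R0Q019.q251_2) (q_cons (Vale.Agent.P032.Lt.q R0Q019.q251_3) q_nil))))

theorem p252 : Pat 73 73 TBm TCm E R0Q019.P252 R0Q019.I252 := pat_step (by decide +kernel) (q_cons (Vale.Agent.P032.Lt.q R0Q019.q252_0) (q_cons (Vale.Agent.P032.Lt.q R0Q019.q252_1) (q_cons (Vale.Agent.P032.Lt.q R0Q019.q252_2) (q_cons (Vale.Agent.P032.Lt.q R0Q019.q252_3) (q_cons (Vale.Agent.P032.Lt.q R0Q019.q252_4) q_nil)))))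

theorem p253 : Pat 73 73 TBm TCm E R0Q019.P253 R0Q019.I253 := pat_step (by decide +kernel) (q_cons (Vale.Agent.P032.Lt.q R0Q019.q253_0) (q_cons (Vale.Agent.P032.Lt.q R0Q019.q253_1) (q_cons (Vale.Agent.P032.Lt.q R0Q019.q253_2) q_nil)))

theorem p254 : Pat 73 73 TBm TCm E R0Q019.P254 R0Q019.I254 := pat_step (by decide +kernel) (q_cons (Vale.Agent.P032.Lt.q R0Q019.q254_0) (q_cons (Vale.Agent.P032.Lt.q R0Q019.q254_1) (q_cons (Vale.Agent.P032.Lt.q R0Q019.q254_2) (q_cons (Vale.Agent.P032.Lt.q R0Q019.q254_3) (q_cons (Vale.Agent.P032.Lt.q R0Q019.q254_4) (q_cons (Vale.Agent.P032.Lt.q R0Q019.q254_5) (q_cons (Vale.Agent.P032.Lt.q R0Q019.q254_6) q_nil)))))))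

def L : List (List ℕ) := [R0Q010.P130, R0Q010.P131, R0Q010.P132, R0Q010.P133, R0Q010.P134, R0Q010.P135, R0Q010.P136, R0Q010.P137, R0Q010.P138, R0Q010.P139, R0Q010.P140, R0Q010.P141, R0Q010.P142, R0Q010.P143, R0Q010.P144, R0Q010.P145, R0Q010.P146, R0Q011.P147, R0Q011.P148, R0Q011.P149, R0Q011.P150, R0Q011.P151, R0Q011.P152, R0Q011.P153, R0Q011.P154, R0Q011.P155, R0Q011.P156, R0Q012.P157, R0Q012.P158, R0Q012.P159, R0Q012.P160, R0Q012.P161, R0Q012.P162, R0Q012.P163, R0Q012.P164, R0Q012.P165, R0Q013.P166, R0Q013.P167, R0Q013.P168, R0Q013.P169, R0Q013.P170, R0Q013.P171, R0Q013.P172, R0Q013.P173, R0Q013.P174, R0Q013.P175, R0Q013.P176, R0Q013.P177, R0Q014.P178, R0Q014.P179, R0Q014.P180, R0Q014.P181, R0Q014.P182, R0Q014.P183, R0Q014.P184, R0Q014.P185, R0Q014.P186, R0Q014.P187, R0Q015.P188, R0Q015.P189, R0Q015.P190, R0Q015.P191, R0Q015.P192, R0Q015.P193, R0Q015.P194, R0Q015.P195,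 R0Q016.P196, R0Q016.P197, R0Q016.P198, R0Q016.P199, R0Q016.P200, R0Q016.P201, R0Q016.P202, R0Q016.P203, R0Q016.P204, R0Q016.P205, R0Q016.P206, R0Q016.P207, R0Q016.P208, R0Q016.P209, R0Q016.P210, R0Q016.P211, R0Q016.P212, R0Q016.P213, R0Q016.P214, R0Q016.P215, R0Q016.P216, R0Q017.P217, R0Q017.P218, R0Q017.P219, R0Q017.P220, R0Q017.P221, R0Q017.P222, R0Q017.P223, R0Q017.P224, R0Q017.P225, R0Q017.P226, R0Q017.P227, R0Q017.P228, R0Q017.P229, R0Q018.P230, R0Q018.P231, R0Q018.P232, R0Q018.P233, R0Q018.P234, R0Q018.P235, R0Q018.P236, R0Q018.P237, R0Q018.P238, R0Q018.P239, R0Q018.P240, R0Q018.P241, R0Q018.P242, R0Q018.P243, R0Q019.P244, R0Q019.P245, R0Q019.P246, R0Q019.P247, R0Q019.P248, R0Q019.P249, R0Q019.P250, R0Q019.P251, R0Q019.P252, R0Q019.P253, R0Q019.P254]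

theorem all : ∀ P ∈ L, Crt 73 73 TBm TCm E P := crt_cons p130 (crt_cons p131 (crt_cons p132 (crt_cons p133 (crt_cons p134 (crt_cons p135 (crt_cons p136 (crt_cons p137 (crt_cons p138 (crt_cons p139 (crt_cons p140 (crt_cons p141 (crt_cons p142 (crt_cons p143 (crt_cons p144 (crt_cons p145 (crt_cons p146 (crt_cons p147 (crt_cons p148 (crt_cons p149 (crt_cons p150 (crt_cons p151 (crt_cons p152 (crt_cons p153 (crt_cons p154 (crt_cons p155 (crt_cons p156 (crt_cons p157 (crt_cons p158 (crt_cons p159 (crt_cons p160 (crt_cons p161 (crt_cons p162 (crt_cons p163 (crt_cons p164 (crt_cons p165 (crt_cons p166 (crt_cons p167 (crt_cons p168 (crt_cons p169 (crt_cons p170 (crt_cons p171 (crt_cons p172 (crt_cons p173 (crt_cons p174 (crt_cons p175 (crt_cons p176 (crt_cons p177 (crt_cons p178 (crt_cons p179 (crt_cons p180 (crt_cons p181 (crt_cons p182 (crt_cons p183 (crt_cons p184 (crt_cons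 p185 (crt_cons p186 (crt_cons p187 (crt_cons p188 (crt_cons p189 (crt_cons p190 (crt_cons p191 (crt_cons p192 (crt_cons p193 (crt_cons p194 (crt_cons p195 (crt_cons p196 (crt_cons p197 (crt_cons p198 (crt_cons p199 (crt_cons p200 (crt_cons p201 (crt_cons p202 (crt_cons p203 (crt_cons p204 (crt_cons p205 (crt_cons p206 (crt_cons p207 (crt_cons p208 (crt_cons p209 (crt_cons p210 (crt_cons p211 (crt_cons p212 (crt_cons p213 (crt_cons p214 (crt_cons p215 (crt_cons p216 (crt_cons p217 (crt_cons p218 (crt_cons p219 (crt_cons p220 (crt_cons p221 (crt_cons p222 (crt_cons p223 (crt_cons p224 (crt_cons p225 (crt_cons p226 (crt_cons p227 (crt_cons p228 (crt_cons p229 (crt_cons p230 (crt_cons p231 (crt_cons p232 (crt_cons p233 (crt_cons p234 (crt_cons p235 (crt_cons p236 (crt_cons p237 (crt_cons p238 (crt_cons p239 (crt_cons p240 (crt_cons p241 (crt_cons p242 (crt_cons p243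 (crt_cons p244 (crt_cons p245 (crt_cons p246 (crt_cons p247 (crt_cons p248 (crt_cons p249 (crt_cons p250 (crt_cons p251 (crt_cons p252 (crt_cons p253 (crt_cons p254 crt_nil))))))))))))))))))))))))))))))))))))))))))))))))))))))))))))))))))))))))))))))))))))))))))))))))))))))))))))))))))))))))))))

end Vale.Agent.P032X.Cert.X1b.A.R0H001
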