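import Vale.Agent.P032X.H892.LtH
import Vale.Agent.P032X.H286.Z73
import Vale.Agent.P032X.Cert.X1b.A.R0Q029
import Vale.Agent.P032X.Cert.X1b.A.R0Q030
import Vale.Agent.P032X.Cert.X1b.A.R0Q031
import Vale.Agent.P032X.Cert.X1b.A.R0Q032
import Vale.Agent.P032X.Cert.X1b.A.R0Q033
import Vale.Agent.P032X.Cert.X1b.A.R0Q034
import Vale.Agent.P032X.Cert.X1b.A.R0Q035
import Vale.Agent.P032X.Cert.X1b.A.R0Q036
import Vale.Agent.P032X.Cert.X1b.A.R0Q037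
import Vale.Agent.P032X.Cert.X1b.A.R0Q038

set_option maxRecDepth 1000000

namespace Vale.Agent.P032X.Cert.X1b.A.R0H003

open Vale.Agent.P032.H820.K Vale.Agent.P032.H357.MK Vale.Agent.P032.H286.E Vale.Agent.P032.H61 

def E : List (List ℕ) := EZ 31

theorem p375 : Pat 73 73 TBm TCm E R0Q029.P375 R0Q029.I375 := pat_step (by decide +kernel) (q_cons (Vale.Agent.P032.Lt.q R0Q029.q375_0) (q_cons (Vale.Agent.P032.Lt.q R0Q029.q375_1) (q_cons (Vale.Agent.P032.Lt.q R0Q029.q375_2) (q_cons (Vale.Agent.P032.Lt.q R0Q029.q375_3) q_nil))))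

theorem p376 : Pat 73 73 TBm TCm E R0Q029.P376 R0Q029.I376 := pat_step (by decide +kernel) (q_cons (Vale.Agent.P032.Lt.q R0Q029.q376_0) (q_cons (Vale.Agent.P032.Lt.q R0Q029.q376_1) (q_cons (Vale.Agent.P032.Lt.q R0Q029.q376_2) (q_cons (Vale.Agent.P032.Lt.q R0Q029.q376_3) (q_cons (Vale.Agent.P032.Lt.q R0Q029.q376_4) (q_cons (Vale.Agent.P032.Lt.q R0Q029.q376_5) q_nil))))))

theorem p377 : Pat 73 73 TBm TCm E R0Q029.P377 R0Q029.I377 := pat_step (by decide +kernel) (q_cons (Vale.Agent.P032.Lt.q R0Q029.q377_0) (q_cons (Vale.Agent.P032.Lt.q R0Q029.q377_1) (q_cons (Vale.Agent.P032.Lt.q R0Q029.q377_2) (q_cons (Vale.Agent.P032.Lt.q R0Q029.q377_3) (q_cons (Vale.Agent.P032.Lt.q R0Q029.q377_4) (q_cons (Vale.Agent.P032.Lt.q R0Q029.q377_5) (q_cons (Vale.Agent.P032.Lt.q R0Q029.q377_6) q_nil)))))))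

theorem p378 : Pat 73 73 TBm TCm E R0Q029.P378 R0Q029.I378 := pat_step (by decide +kernel) (q_cons (Vale.Agent.P032.Lt.q R0Q029.q378_0) (q_cons (Vale.Agent.P032.Lt.q R0Q029.q378_1) (q_cons (Vale.Agent.P032.Lt.q R0Q029.q378_2) q_nil)))

theorem p379 : Pat 73 73 TBm TCm E R0Q029.P379 R0Q029.I379 := pat_step (by decide +kernel) (q_cons (Vale.Agent.P032.Lt.q R0Q029.q379_0) (q_cons (Vale.Agent.P032.Lt.q R0Q029.q379_1) (q_cons (Vale.Agent.P032.Lt.q R0Q029.q379_2) (q_cons (Vale.Agent.P032.Lt.q R0Q029.q379_3) q_nil))))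

theorem p380 : Pat 73 73 TBm TCm E R0Q029.P380 R0Q029.I380 := pat_step (by decide +kernel) (q_cons (Vale.Agent.P032.Lt.q R0Q029.q380_0) (q_cons (Vale.Agent.P032.Lt.q R0Q029.q380_1) (q_cons (Vale.Agent.P032.Lt.q R0Q029.q380_2) (q_cons (Vale.Agent.P032.Lt.q R0Q029.q380_3) (q_cons (Vale.Agent.P032.Lt.q R0Q029.q380_4) (q_cons (Vale.Agent.P032.Lt.q R0Q029.q380_5) (q_cons (Vale.Agent.P032.Lt.q R0Q029.q380_6) (q_cons (Vale.Agent.P032.Lt.q R0Q029.q380_7) (q_cons (Vale.Agent.P032.Lt.q R0Q029.q380_8) (q_cons (Vale.Agent.P032.Lt.q R0Q029.q380_9) (q_cons (Vale.Agent.P032.Lt.q R0Q029.q380_10) (q_cons (Vale.Agent.P032.Lt.q R0Q029.q380_11) (q_cons (Vale.Agent.P032.Lt.q R0Q029.q380_12) (q_cons (Vale.Agent.P032.Lt.q R0Q029.q380_13) q_nil))))))))))))))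

theorem p381 : Pat 73 73 TBm TCm E R0Q029.P381 R0Q029.I381 := pat_step (by decide +kernel) (q_cons (Vale.Agent.P032.Lt.q R0Q029.q381_0) (q_cons (Vale.Agent.P032.Lt.q R0Q029.q381_1) (q_cons (Vale.Agent.P032.Lt.q R0Q029.q381_2) q_nil)))

theorem p382 : Pat 73 73 TBm TCm E R0Q029.P382 R0Q029.I382 := pat_step (by decide +kernel) (q_cons (Vale.Agent.P032.Lt.q R0Q029.q382_0) (q_cons (Vale.Agent.P032.Lt.q R0Q029.q382_1) (q_cons (Vale.Agent.P032.Lt.q R0Q029.q382_2) q_nil)))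

theorem p383 : Pat 73 73 TBm TCm E R0Q029.P383 R0Q029.I383 := pat_step (by decide +kernel) (q_cons (Vale.Agent.P032.Lt.q R0Q029.q383_0) (q_cons (Vale.Agent.P032.Lt.q R0Q029.q383_1) (q_cons (Vale.Agent.P032.Lt.q R0Q029.q383_2) (q_cons (Vale.Agent.P032.Lt.q R0Q029.q383_3) (q_cons (Vale.Agent.P032.Lt.q R0Q029.q383_4) q_nil)))))

theorem p384 : Pat 73 73 TBm TCm E R0Q029.P384 R0Q029.I384 := pat_step (by decide +kernel) (q_cons (Vale.Agent.P032.Lt.q R0Q029.q384_0) (q_cons (Vale.Agent.P032.Lt.q R0Q029.q384_1) (q_cons (Vale.Agent.P032.Lt.q R0Q029.q384_2) q_nil)))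

theorem p385 : Pat 73 73 TBm TCm E R0Q029.P385 R0Q029.I385 := pat_step (by decide +kernel) (q_cons (Vale.Agent.P032.Lt.q R0Q029.q385_0) (q_cons (Vale.Agent.P032.Lt.q R0Q029.q385_1) (q_cons (Vale.Agent.P032.Lt.q R0Q029.q385_2) q_nil)))

theorem p386 : Pat 73 73 TBm TCm E R0Q029.P386 R0Q029.I386 := pat_step (by decide +kernel) (q_cons (Vale.Agent.P032.Lt.q R0Q029.q386_0) q_nil)

theorem p387 : Pat 73 73 TBm TCm E R0Q029.P387 R0Q029.I387 := pat_step (by decide +kernel) (q_cons (Vale.Agent.P032.Lt.q R0Q029.q387_0) (q_cons (Vale.Agent.P032.Lt.q R0Q029.q387_1) (q_cons (Vale.Agent.P032.Lt.q R0Q029.q387_2) (q_cons (Vale.Agent.P032.Lt.q R0Q029.q387_3) q_nil))))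

theorem p388 : Pat 73 73 TBm TCm E R0Q029.P388 R0Q029.I388 := pat_step (by decide +kernel) (q_cons (Vale.Agent.P032.Lt.q R0Q029.q388_0) (q_cons (Vale.Agent.P032.Lt.q R0Q029.q388_1) (q_cons (Vale.Agent.P032.Lt.q R0Q029.q388_2) (q_cons (Vale.Agent.P032.Lt.q R0Q029.q388_3) (q_cons (Vale.Agent.P032.Lt.q R0Q029.q388_4) (q_cons (Vale.Agent.P032.Lt.q R0Q029.q388_5) q_nil))))))

theorem p389 : Pat 73 73 TBm TCm E R0Q030.P389 R0Q030.I389 := pat_step (by decide +kernel) (q_cons (Vale.Agent.P032.Lt.q R0Q030.q389_0) (q_cons (Vale.Agent.P032.Lt.q R0Q030.q389_1) (q_cons (Vale.Agent.P032.Lt.q R0Q030.q389_2) q_nil)))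

theorem p390 : Pat 73 73 TBm TCm E R0Q030.P390 R0Q030.I390 := pat_step (by decide +kernel) (q_cons (Vale.Agent.P032.Lt.q R0Q030.q390_0) (q_cons (Vale.Agent.P032.Lt.q R0Q030.q390_1) (q_cons (Vale.Agent.P032.Lt.q R0Q030.q390_2) (q_cons (Vale.Agent.P032.Lt.q R0Q030.q390_3) (q_cons (Vale.Agent.P032.Lt.q R0Q030.q390_4) (q_cons (Vale.Agent.P032.Lt.q R0Q030.q390_5) q_nil))))))

theorem p391 : Pat 73 73 TBm TCm E R0Q030.P391 R0Q030.I391 := pat_step (by decide +kernel) (q_cons (Vale.Agent.P032.Lt.q R0Q030.q391_0) (q_cons (Vale.Agent.P032.Lt.q R0Q030.q391_1) (q_cons (Vale.Agent.P032.Lt.q R0Q030.q391_2) (q_cons (Vale.Agent.P032.Lt.q R0Q030.q391_3) (q_cons (Vale.Agent.P032.Lt.q R0Q030.q391_4) q_nil)))))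

theorem p392 : Pat 73 73 TBm TCm E R0Q030.P392 R0Q030.I392 := pat_step (by decide +kernel) (q_cons (Vale.Agent.P032.Lt.q R0Q030.q392_0) (q_cons (Vale.Agent.P032.Lt.q R0Q030.q392_1) (q_cons (Vale.Agent.P032.Lt.q R0Q030.q392_2) (q_cons (Vale.Agent.P032.Lt.q R0Q030.q392_3) q_nil))))

theorem p393 : Pat 73 73 TBm TCm E R0Q030.P393 R0Q030.I393 := pat_step (by decide +kernel) (q_cons (Vale.Agent.P032.Lt.q R0Q030.q393_0) q_nil)

theorem p394 : Pat 73 73 TBm TCm E R0Q030.P394 R0Q030.I394 := pat_step (by decide +kernel) (q_cons (Vale.Agent.P032.Lt.q R0Q030.q394_0) (q_cons (Vale.Agent.P032.Lt.q R0Q030.q394_1) q_nil))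

theorem p395 : Pat 73 73 TBm TCm E R0Q030.P395 R0Q030.I395 := pat_step (by decide +kernel) (q_cons (Vale.Agent.P032.Lt.q R0Q030.q395_0) (q_cons (Vale.Agent.P032.Lt.q R0Q030.q395_1) q_nil))

theorem p396 : Pat 73 73 TBm TCm E R0Q030.P396 R0Q030.I396 := pat_step (by decide +kernel) (q_cons (Vale.Agent.P032.Lt.q R0Q030.q396_0) q_nil)

theorem p397 : Pat 73 73 TBm TCm E R0Q030.P397 R0Q030.I397 := pat_step (by decide +kernel) (q_cons (Vale.Agent.P032.Lt.q R0Q030.q397_0) q_nil)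

theorem p398 : Pat 73 73 TBm TCm E R0Q030.P398 R0Q030.I398 := pat_step (by decide +kernel) (q_cons (Vale.Agent.P032.Lt.q R0Q030.q398_0) (q_cons (Vale.Agent.P032.Lt.q R0Q030.q398_1) q_nil))

theorem p399 : Pat 73 73 TBm TCm E R0Q030.P399 R0Q030.I399 := pat_step (by decide +kernel) (q_cons (Vale.Agent.P032.Lt.q R0Q030.q399_0) (q_cons (Vale.Agent.P032.Lt.q R0Q030.q399_1) (q_cons (Vale.Agent.P032.Lt.q R0Q030.q399_2) q_nil)))

theorem p400 : Pat 73 73 TBm TCm E R0Q030.P400 R0Q030.I400 := pat_step (by decide +kernel) (q_cons (Vale.Agent.P032.Lt.q R0Q030.q400_0) (q_cons (Vale.Agent.P032.Lt.q R0Q030.q400_1) (q_cons (Vale.Agent.P032.Lt.q R0Q030.q400_2) q_nil)))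

theorem p401 : Pat 73 73 TBm TCm E R0Q030.P401 R0Q030.I401 := pat_step (by decide +kernel) (q_cons (Vale.Agent.P032.Lt.q R0Q030.q401_0) (q_cons (Vale.Agent.P032.Lt.q R0Q030.q401_1) (q_cons (Vale.Agent.P032.Lt.q R0Q030.q401_2) q_nil)))

theorem p402 : Pat 73 73 TBm TCm E R0Q030.P402 R0Q030.I402 := pat_step (by decide +kernel) (q_cons (Vale.Agent.P032.Lt.q R0Q030.q402_0) (q_cons (Vale.Agent.P032.Lt.q R0Q030.q402_1) q_nil))

theorem p403 : Pat 73 73 TBm TCm E R0Q030.P403 R0Q030.I403 := pat_step (by decide +kernel) (q_cons (Vale.Agent.P032.Lt.q R0Q030.q403_0) (q_cons (Vale.Agent.P032.Lt.q R0Q030.q403_1) (q_cons (Vale.Agent.P032.Lt.q R0Q030.q403_2) (q_cons (Vale.Agent.P032.Lt.q R0Q030.q403_3) (q_cons (Vale.Agent.P032.Lt.q R0Q030.q403_4) (q_cons (Vale.Agent.P032.Lt.q R0Q030.q403_5) (q_cons (Vale.Agent.P032.Lt.q R0Q030.q403_6) (q_cons (Vale.Agent.P032.Lt.q R0Q030.q403_7) q_nil))))))))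

theorem p404 : Pat 73 73 TBm TCm E R0Q030.P404 R0Q030.I404 := pat_step (by decide +kernel) (q_cons (Vale.Agent.P032.Lt.q R0Q030.q404_0) (q_cons (Vale.Agent.P032.Lt.q R0Q030.q404_1) (q_cons (Vale.Agent.P032.Lt.q R0Q030.q404_2) (q_cons (Vale.Agent.P032.Lt.q R0Q030.q404_3) q_nil))))

theorem p405 : Pat 73 73 TBm TCm E R0Q031.P405 R0Q031.I405 := pat_step (by decide +kernel) (q_cons (Vale.Agent.P032.Lt.q R0Q031.q405_0) (q_cons (Vale.Agent.P032.Lt.q R0Q031.q405_1) q_nil))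

theorem p406 : Pat 73 73 TBm TCm E R0Q031.P406 R0Q031.I406 := pat_step (by decide +kernel) (q_cons (Vale.Agent.P032.Lt.q R0Q031.q406_0) q_nil)

theorem p407 : Pat 73 73 TBm TCm E R0Q031.P407 R0Q031.I407 := pat_step (by decide +kernel) (q_cons (Vale.Agent.P032.Lt.q R0Q031.q407_0) (q_cons (Vale.Agent.P032.Lt.q R0Q031.q407_1) (q_cons (Vale.Agent.P032.Lt.q R0Q031.q407_2) (q_cons (Vale.Agent.P032.Lt.q R0Q031.q407_3) q_nil))))

theorem p408 : Pat 73 73 TBm TCm E R0Q031.P408 R0Q031.I408 := pat_step (by decide +kernel) (q_cons (Vale.Agent.P032.Lt.q R0Q031.q408_0) (q_cons (Vale.Agent.P032.Lt.q R0Q031.q408_1) (q_cons (Vale.Agent.P032.Lt.q R0Q031.q408_2) (q_cons (Vale.Agent.P032.Lt.q R0Q031.q408_3) (q_cons (Vale.Agent.P032.Lt.q R0Q031.q408_4) (q_cons (Vale.Agent.P032.Lt.q R0Q031.q408_5) (q_cons (Vale.Agent.P032.Lt.q R0Q031.q408_6) (q_cons (Vale.Agent.P032.Lt.q R0Q031.q408_7) q_nil))))))))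

theorem p409 : Pat 73 73 TBm TCm E R0Q031.P409 R0Q031.I409 := pat_step (by decide +kernel) (q_cons (Vale.Agent.P032.Lt.q R0Q031.q409_0) q_nil)

theorem p410 : Pat 73 73 TBm TCm E R0Q031.P410 R0Q031.I410 := pat_step (by decide +kernel) (q_cons (Vale.Agent.P032.Lt.q R0Q031.q410_0) q_nil)

theorem p411 : Pat 73 73 TBm TCm E R0Q031.P411 R0Q031.I411 := pat_step (by decide +kernel) (q_cons (Vale.Agent.P032.Lt.q R0Q031.q411_0) q_nil)

theorem p412 : Pat 73 73 TBm TCm E R0Q031.P412 R0Q031.I412 := pat_step (by decide +kernel) (q_cons (Vale.Agent.P032.Lt.q R0Q031.q412_0) (q_cons (Vale.Agent.P032.Lt.q R0Q031.q412_1) (q_cons (Vale.Agent.P032.Lt.q R0Q031.q412_2) (q_cons (Vale.Agent.P032.Lt.q R0Q031.q412_3) (q_cons (Vale.Agent.P032.Lt.q R0Q031.q412_4) (q_cons (Vale.Agent.P032.Lt.q R0Q031.q412_5) (q_cons (Vale.Agent.P032.Lt.q R0Q031.q412_6) (q_cons (Vale.Agent.P032.Lt.q R0Q031.q412_7)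 q_nil))))))))

theorem p413 : Pat 73 73 TBm TCm E R0Q031.P413 R0Q031.I413 := pat_step (by decide +kernel) (q_cons (Vale.Agent.P032.Lt.q R0Q031.q413_0) q_nil)

theorem p414 : Pat 73 73 TBm TCm E R0Q031.P414 R0Q031.I414 := pat_step (by decide +kernel) (q_cons (Vale.Agent.P032.Lt.q R0Q031.q414_0) q_nil)

theorem p415 : Pat 73 73 TBm TCm E R0Q031.P415 R0Q031.I415 := pat_step (by decide +kernel) (q_cons (Vale.Agent.P032.Lt.q R0Q031.q415_0) q_nil)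

theorem p416 : Pat 73 73 TBm TCm E R0Q031.P416 R0Q031.I416 := pat_step (by decide +kernel) (q_cons (Vale.Agent.P032.Lt.q R0Q031.q416_0) q_nil)

theorem p417 : Pat 73 73 TBm TCm E R0Q031.P417 R0Q031.I417 := pat_step (by decide +kernel) (q_cons (Vale.Agent.P032.Lt.q R0Q031.q417_0) q_nil)

theorem p418 : Pat 73 73 TBm TCm E R0Q031.P418 R0Q031.I418 := pat_step (by decide +kernel) (q_cons (Vale.Agent.P032.Lt.q R0Q031.q418_0) q_nil)

theorem p419 : Pat 73 73 TBm TCm E R0Q031.P419 R0Q031.I419 := pat_step (by decide +kernel) (q_cons (Vale.Agent.P032.Lt.q R0Q031.q419_0) (q_cons (Vale.Agent.P032.Lt.q R0Q031.q419_1) (q_cons (Vale.Agent.P032.Lt.q R0Q031.q419_2) (q_cons (Vale.Agent.P032.Lt.q R0Q031.q419_3) (q_cons (Vale.Agent.P032.Lt.q R0Q031.q419_4) (q_cons (Vale.Agent.P032.Lt.q R0Q031.q419_5) (q_cons (Vale.Agent.P032.Lt.q R0Q031.q419_6) (q_cons (Vale.Agent.P032.Lt.q R0Q031.q419_7)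 q_nil))))))))

theorem p420 : Pat 73 73 TBm TCm E R0Q031.P420 R0Q031.I420 := pat_step (by decide +kernel) (q_cons (Vale.Agent.P032.Lt.q R0Q031.q420_0) q_nil)

theorem p421 : Pat 73 73 TBm TCm E R0Q031.P421 R0Q031.I421 := pat_step (by decide +kernel) (q_cons (Vale.Agent.P032.Lt.q R0Q031.q421_0) (q_cons (Vale.Agent.P032.Lt.q R0Q031.q421_1) (q_cons (Vale.Agent.P032.Lt.q R0Q031.q421_2) (q_cons (Vale.Agent.P032.Lt.q R0Q031.q421_3) (q_cons (Vale.Agent.P032.Lt.q R0Q031.q421_4) (q_cons (Vale.Agent.P032.Lt.q R0Q031.q421_5) (q_cons (Vale.Agent.P032.Lt.q R0Q031.q421_6) q_nil)))))))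

theorem p422 : Pat 73 73 TBm TCm E R0Q031.P422 R0Q031.I422 := pat_step (by decide +kernel) (q_cons (Vale.Agent.P032.Lt.q R0Q031.q422_0) (q_cons (Vale.Agent.P032.Lt.q R0Q031.q422_1) (q_cons (Vale.Agent.P032.Lt.q R0Q031.q422_2) (q_cons (Vale.Agent.P032.Lt.q R0Q031.q422_3) (q_cons (Vale.Agent.P032.Lt.q R0Q031.q422_4) q_nil)))))

theorem p423 : Pat 73 73 TBm TCm E R0Q032.P423 R0Q032.I423 := pat_step (by decide +kernel) (q_cons (Vale.Agent.P032.Lt.q R0Q032.q423_0) (q_cons (Vale.Agent.P032.Lt.q R0Q032.q423_1) (q_cons (Vale.Agent.P032.Lt.q R0Q032.q423_2) (q_cons (Vale.Agent.P032.Lt.q R0Q032.q423_3) (q_cons (Vale.Agent.P032.Lt.q R0Q032.q423_4) (q_cons (Vale.Agent.P032.Lt.q R0Q032.q423_5) (q_cons (Vale.Agent.P032.Lt.q R0Q032.q423_6) q_nil)))))))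

theorem p424 : Pat 73 73 TBm TCm E R0Q032.P424 R0Q032.I424 := pat_step (by decide +kernel) (q_cons (Vale.Agent.P032.Lt.q R0Q032.q424_0) (q_cons (Vale.Agent.P032.Lt.q R0Q032.q424_1) (q_cons (Vale.Agent.P032.Lt.q R0Q032.q424_2) (q_cons (Vale.Agent.P032.Lt.q R0Q032.q424_3) q_nil))))

theorem p425 : Pat 73 73 TBm TCm E R0Q032.P425 R0Q032.I425 := pat_step (by decide +kernel) (q_cons (Vale.Agent.P032.Lt.q R0Q032.q425_0) (q_cons (Vale.Agent.P032.Lt.q R0Q032.q425_1) (q_cons (Vale.Agent.P032.Lt.q R0Q032.q425_2) q_nil)))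

theorem p426 : Pat 73 73 TBm TCm E R0Q032.P426 R0Q032.I426 := pat_step (by decide +kernel) (q_cons (Vale.Agent.P032.Lt.q R0Q032.q426_0) q_nil)

theorem p427 : Pat 73 73 TBm TCm E R0Q032.P427 R0Q032.I427 := pat_step (by decide +kernel) (q_cons (Vale.Agent.P032.Lt.q R0Q032.q427_0) (q_cons (Vale.Agent.P032.Lt.q R0Q032.q427_1) (q_cons (Vale.Agent.P032.Lt.q R0Q032.q427_2) q_nil)))

theorem p428 : Pat 73 73 TBm TCm E R0Q032.P428 R0Q032.I428 := pat_step (by decide +kernel) (q_cons (Vale.Agent.P032.Lt.q R0Q032.q428_0) (q_cons (Vale.Agent.P032.Lt.q R0Q032.q428_1) q_nil))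

theorem p429 : Pat 73 73 TBm TCm E R0Q032.P429 R0Q032.I429 := pat_step (by decide +kernel) (q_cons (Vale.Agent.P032.Lt.q R0Q032.q429_0) q_nil)

theorem p430 : Pat 73 73 TBm TCm E R0Q032.P430 R0Q032.I430 := pat_step (by decide +kernel) (q_cons (Vale.Agent.P032.Lt.q R0Q032.q430_0) (q_cons (Vale.Agent.P032.Lt.q R0Q032.q430_1) (q_cons (Vale.Agent.P032.Lt.q R0Q032.q430_2) q_nil)))

theorem p431 : Pat 73 73 TBm TCm E R0Q032.P431 R0Q032.I431 := pat_step (by decide +kernel) (q_cons (Vale.Agent.P032.Lt.q R0Q032.q431_0) (q_cons (Vale.Agent.P032.Lt.q R0Q032.q431_1) (q_cons (Vale.Agent.P032.Lt.q R0Q032.q431_2) (q_cons (Vale.Agent.P032.Lt.q R0Q032.q431_3) (q_cons (Vale.Agent.P032.Lt.q R0Q032.q431_4) (q_cons (Vale.Agent.P032.Lt.q R0Q032.q431_5) (q_cons (Vale.Agent.P032.Lt.q R0Q032.q431_6) q_nil)))))))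

theorem p432 : Pat 73 73 TBm TCm E R0Q032.P432 R0Q032.I432 := pat_step (by decide +kernel) (q_cons (Vale.Agent.P032.Lt.q R0Q032.q432_0) (q_cons (Vale.Agent.P032.Lt.q R0Q032.q432_1) (q_cons (Vale.Agent.P032.Lt.q R0Q032.q432_2) (q_cons (Vale.Agent.P032.Lt.q R0Q032.q432_3) (q_cons (Vale.Agent.P032.Lt.q R0Q032.q432_4) (q_cons (Vale.Agent.P032.Lt.q R0Q032.q432_5) q_nil))))))

theorem p433 : Pat 73 73 TBm TCm E R0Q032.P433 R0Q032.I433 := pat_step (by decide +kernel) (q_cons (Vale.Agent.P032.Lt.q R0Q032.q433_0) (q_cons (Vale.Agent.P032.Lt.q R0Q032.q433_1) (q_cons (Vale.Agent.P032.Lt.q R0Q032.q433_2) (q_cons (Vale.Agent.P032.Lt.q R0Q032.q433_3) q_nil))))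

theorem p434 : Pat 73 73 TBm TCm E R0Q032.P434 R0Q032.I434 := pat_step (by decide +kernel) (q_cons (Vale.Agent.P032.Lt.q R0Q032.q434_0) (q_cons (Vale.Agent.P032.Lt.q R0Q032.q434_1) (q_cons (Vale.Agent.P032.Lt.q R0Q032.q434_2) (q_cons (Vale.Agent.P032.Lt.q R0Q032.q434_3) q_nil))))

theorem p435 : Pat 73 73 TBm TCm E R0Q032.P435 R0Q032.I435 := pat_step (by decide +kernel) (q_cons (Vale.Agent.P032.Lt.q R0Q032.q435_0) (q_cons (Vale.Agent.P032.Lt.q R0Q032.q435_1) (q_cons (Vale.Agent.P032.Lt.q R0Q032.q435_2) (q_cons (Vale.Agent.P032.Lt.q R0Q032.q435_3) (q_cons (Vale.Agent.P032.Lt.q R0Q032.q435_4) (q_cons (Vale.Agent.P032.Lt.q R0Q032.q435_5) q_nil))))))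

theorem p436 : Pat 73 73 TBm TCm E R0Q032.P436 R0Q032.I436 := pat_step (by decide +kernel) (q_cons (Vale.Agent.P032.Lt.q R0Q032.q436_0) q_nil)

theorem p437 : Pat 73 73 TBm TCm E R0Q033.P437 R0Q033.I437 := pat_step (by decide +kernel) (q_cons (Vale.Agent.P032.Lt.q R0Q033.q437_0) (q_cons (Vale.Agent.P032.Lt.q R0Q033.q437_1) (q_cons (Vale.Agent.P032.Lt.q R0Q033.q437_2) (q_cons (Vale.Agent.P032.Lt.q R0Q033.q437_3) q_nil))))

theorem p438 : Pat 73 73 TBm TCm E R0Q033.P438 R0Q033.I438 := pat_step (by decide +kernel) (q_cons (Vale.Agent.P032.Lt.q R0Q033.q438_0) (q_cons (Vale.Agent.P032.Lt.q R0Q033.q438_1) (q_cons (Vale.Agent.P032.Lt.q R0Q033.q438_2) (q_cons (Vale.Agent.P032.Lt.q R0Q033.q438_3) (q_cons (Vale.Agent.P032.Lt.q R0Q033.q438_4) q_nil)))))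

theorem p439 : Pat 73 73 TBm TCm E R0Q033.P439 R0Q033.I439 := pat_step (by decide +kernel) (q_cons (Vale.Agent.P032.Lt.q R0Q033.q439_0) q_nil)

theorem p440 : Pat 73 73 TBm TCm E R0Q033.P440 R0Q033.I440 := pat_step (by decide +kernel) (q_cons (Vale.Agent.P032.Lt.q R0Q033.q440_0) q_nil)

theorem p441 : Pat 73 73 TBm TCm E R0Q033.P441 R0Q033.I441 := pat_step (by decide +kernel) (q_cons (Vale.Agent.P032.Lt.q R0Q033.q441_0) (q_cons (Vale.Agent.P032.Lt.q R0Q033.q441_1) q_nil))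

theorem p442 : Pat 73 73 TBm TCm E R0Q033.P442 R0Q033.I442 := pat_step (by decide +kernel) (q_cons (Vale.Agent.P032.Lt.q R0Q033.q442_0) (q_cons (Vale.Agent.P032.Lt.q R0Q033.q442_1) q_nil))

theorem p443 : Pat 73 73 TBm TCm E R0Q033.P443 R0Q033.I443 := pat_step (by decide +kernel) (q_cons (Vale.Agent.P032.Lt.q R0Q033.q443_0) q_nil)

theorem p444 : Pat 73 73 TBm TCm E R0Q033.P444 R0Q033.I444 := pat_step (by decide +kernel) (q_cons (Vale.Agent.P032.Lt.q R0Q033.q444_0) q_nil)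

theorem p445 : Pat 73 73 TBm TCm E R0Q033.P445 R0Q033.I445 := pat_step (by decide +kernel) (q_cons (Vale.Agent.P032.Lt.q R0Q033.q445_0) q_nil)

theorem p446 : Pat 73 73 TBm TCm E R0Q033.P446 R0Q033.I446 := pat_step (by decide +kernel) (q_cons (Vale.Agent.P032.Lt.q R0Q033.q446_0) q_nil)

theorem p447 : Pat 73 73 TBm TCm E R0Q033.P447 R0Q033.I447 := pat_step (by decide +kernel) (q_cons (Vale.Agent.P032.Lt.q R0Q033.q447_0) q_nil)

theorem p448 : Pat 73 73 TBm TCm E R0Q033.P448 R0Q033.I448 := pat_step (by decide +kernel) (q_cons (Vale.Agent.P032.Lt.q R0Q033.q448_0) q_nil)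

theorem p449 : Pat 73 73 TBm TCm E R0Q033.P449 R0Q033.I449 := pat_step (by decide +kernel) (q_cons (Vale.Agent.P032.Lt.q R0Q033.q449_0) q_nil)

theorem p450 : Pat 73 73 TBm TCm E R0Q033.P450 R0Q033.I450 := pat_step (by decide +kernel) (q_cons (Vale.Agent.P032.Lt.q R0Q033.q450_0) q_nil)

theorem p451 : Pat 73 73 TBm TCm E R0Q033.P451 R0Q033.I451 := pat_step (by decide +kernel) (q_cons (Vale.Agent.P032.Lt.q R0Q033.q451_0) q_nil)

theorem p452 : Pat 73 73 TBm TCm E R0Q033.P452 R0Q033.I452 := pat_step (by decide +kernel) (q_cons (Vale.Agent.P032.Lt.q R0Q033.q452_0) (q_cons (Vale.Agent.P032.Lt.q R0Q033.q452_1) (q_cons (Vale.Agent.P032.Lt.q R0Q033.q452_2) (q_cons (Vale.Agent.P032.Lt.q R0Q033.q452_3) (q_cons (Vale.Agent.P032.Lt.q R0Q033.q452_4) (q_cons (Vale.Agent.P032.Lt.q R0Q033.q452_5) (q_cons (Vale.Agent.P032.Lt.q R0Q033.q452_6) (q_cons (Vale.Agent.P032.Lt.q R0Q033.q452_7)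 (q_cons (Vale.Agent.P032.Lt.q R0Q033.q452_8) q_nil)))))))))

theorem p453 : Pat 73 73 TBm TCm E R0Q033.P453 R0Q033.I453 := pat_step (by decide +kernel) (q_cons (Vale.Agent.P032.Lt.q R0Q033.q453_0) (q_cons (Vale.Agent.P032.Lt.q R0Q033.q453_1) (q_cons (Vale.Agent.P032.Lt.q R0Q033.q453_2) (q_cons (Vale.Agent.P032.Lt.q R0Q033.q453_3) q_nil))))

theorem p454 : Pat 73 73 TBm TCm E R0Q033.P454 R0Q033.I454 := pat_step (by decide +kernel) (q_cons (Vale.Agent.P032.Lt.q R0Q033.q454_0) (q_cons (Vale.Agent.P032.Lt.q R0Q033.q454_1) (q_cons (Vale.Agent.P032.Lt.q R0Q033.q454_2) q_nil)))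

theorem p455 : Pat 73 73 TBm TCm E R0Q033.P455 R0Q033.I455 := pat_step (by decide +kernel) (q_cons (Vale.Agent.P032.Lt.q R0Q033.q455_0) (q_cons (Vale.Agent.P032.Lt.q R0Q033.q455_1) q_nil))

theorem p456 : Pat 73 73 TBm TCm E R0Q033.P456 R0Q033.I456 := pat_step (by decide +kernel) (q_cons (Vale.Agent.P032.Lt.q R0Q033.q456_0) (q_cons (Vale.Agent.P032.Lt.q R0Q033.q456_1) (q_cons (Vale.Agent.P032.Lt.q R0Q033.q456_2) (q_cons (Vale.Agent.P032.Lt.q R0Q033.q456_3) (q_cons (Vale.Agent.P032.Lt.q R0Q033.q456_4) (q_cons (Vale.Agent.P032.Lt.q R0Q033.q456_5) (q_cons (Vale.Agent.P032.Lt.q R0Q033.q456_6) (q_cons (Vale.Agent.P032.Lt.q R0Q033.q456_7) (q_cons (Vale.Agent.P032.Lt.q R0Q033.q456_8) q_nil)))))))))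

theorem p457 : Pat 73 73 TBm TCm E R0Q034.P457 R0Q034.I457 := pat_step (by decide +kernel) (q_cons (Vale.Agent.P032.Lt.q R0Q034.q457_0) (q_cons (Vale.Agent.P032.Lt.q R0Q034.q457_1) (q_cons (Vale.Agent.P032.Lt.q R0Q034.q457_2) (q_cons (Vale.Agent.P032.Lt.q R0Q034.q457_3) (q_cons (Vale.Agent.P032.Lt.q R0Q034.q457_4) q_nil)))))

theorem p458 : Pat 73 73 TBm TCm E R0Q034.P458 R0Q034.I458 := pat_step (by decide +kernel) (q_cons (Vale.Agent.P032.Lt.q R0Q034.q458_0) (q_cons (Vale.Agent.P032.Lt.q R0Q034.q458_1) (q_cons (Vale.Agent.P032.Lt.q R0Q034.q458_2) (q_cons (Vale.Agent.P032.Lt.q R0Q034.q458_3) q_nil))))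

theorem p459 : Pat 73 73 TBm TCm E R0Q034.P459 R0Q034.I459 := pat_step (by decide +kernel) (q_cons (Vale.Agent.P032.Lt.q R0Q034.q459_0) q_nil)

theorem p460 : Pat 73 73 TBm TCm E R0Q034.P460 R0Q034.I460 := pat_step (by decide +kernel) (q_cons (Vale.Agent.P032.Lt.q R0Q034.q460_0) (q_cons (Vale.Agent.P032.Lt.q R0Q034.q460_1) q_nil))

theorem p461 : Pat 73 73 TBm TCm E R0Q034.P461 R0Q034.I461 := pat_step (by decide +kernel) (q_cons (Vale.Agent.P032.Lt.q R0Q034.q461_0) q_nil)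

theorem p462 : Pat 73 73 TBm TCm E R0Q034.P462 R0Q034.I462 := pat_step (by decide +kernel) (q_cons (Vale.Agent.P032.Lt.q R0Q034.q462_0) (q_cons (Vale.Agent.P032.Lt.q R0Q034.q462_1) (q_cons (Vale.Agent.P032.Lt.q R0Q034.q462_2) (q_cons (Vale.Agent.P032.Lt.q R0Q034.q462_3) (q_cons (Vale.Agent.P032.Lt.q R0Q034.q462_4) (q_cons (Vale.Agent.P032.Lt.q R0Q034.q462_5) (q_cons (Vale.Agent.P032.Lt.q R0Q034.q462_6) (q_cons (Vale.Agent.P032.Lt.q R0Q034.q462_7) (q_cons (Vale.Agent.P032.Lt.q R0Q034.q462_8) (q_cons (Vale.Agent.P032.Lt.q R0Q034.q462_9) (q_cons (Vale.Agent.P032.Lt.q R0Q034.q462_10) q_nil)))))))))))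

theorem p463 : Pat 73 73 TBm TCm E R0Q034.P463 R0Q034.I463 := pat_step (by decide +kernel) (q_cons (Vale.Agent.P032.Lt.q R0Q034.q463_0) (q_cons (Vale.Agent.P032.Lt.q R0Q034.q463_1) (q_cons (Vale.Agent.P032.Lt.q R0Q034.q463_2) q_nil)))

theorem p464 : Pat 73 73 TBm TCm E R0Q034.P464 R0Q034.I464 := pat_step (by decide +kernel) (q_cons (Vale.Agent.P032.Lt.q R0Q034.q464_0) (q_cons (Vale.Agent.P032.Lt.q R0Q034.q464_1) (q_cons (Vale.Agent.P032.Lt.q R0Q034.q464_2) (q_cons (Vale.Agent.P032.Lt.q R0Q034.q464_3) q_nil))))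

theorem p465 : Pat 73 73 TBm TCm E R0Q034.P465 R0Q034.I465 := pat_step (by decide +kernel) (q_cons (Vale.Agent.P032.Lt.q R0Q034.q465_0) (q_cons (Vale.Agent.P032.Lt.q R0Q034.q465_1) (q_cons (Vale.Agent.P032.Lt.q R0Q034.q465_2) (q_cons (Vale.Agent.P032.Lt.q R0Q034.q465_3) q_nil))))

theorem p466 : Pat 73 73 TBm TCm E R0Q034.P466 R0Q034.I466 := pat_step (by decide +kernel) (q_cons (Vale.Agent.P032.Lt.q R0Q034.q466_0) (q_cons (Vale.Agent.P032.Lt.q R0Q034.q466_1) (q_cons (Vale.Agent.P032.Lt.q R0Q034.q466_2) (q_cons (Vale.Agent.P032.Lt.q R0Q034.q466_3) (q_cons (Vale.Agent.P032.Lt.q R0Q034.q466_4) (q_cons (Vale.Agent.P032.Lt.q R0Q034.q466_5) (q_cons (Vale.Agent.P032.Lt.q R0Q034.q466_6) (q_cons (Vale.Agent.P032.Lt.q R0Q034.q466_7) (q_cons (Vale.Agent.P032.Lt.q R0Q034.q466_8) (q_cons (Vale.Agent.P032.Lt.q R0Q034.q466_9) (q_cons (Vale.Agent.P032.Lt.q R0Q034.q466_10) (q_cons (Vale.Agent.P032.Lt.q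 R0Q034.q466_11) (q_cons (Vale.Agent.P032.Lt.q R0Q034.q466_12) (q_cons (Vale.Agent.P032.Lt.q R0Q034.q466_13) (q_cons (Vale.Agent.P032.Lt.q R0Q034.q466_14) (q_cons (Vale.Agent.P032.Lt.q R0Q034.q466_15) (q_cons (Vale.Agent.P032.Lt.q R0Q034.q466_16) (q_cons (Vale.Agent.P032.Lt.q R0Q034.q466_17) (q_cons (Vale.Agent.P032.Lt.q R0Q034.q466_18) (q_cons (Vale.Agent.P032.Lt.q R0Q034.q466_19) (q_cons (Vale.Agent.P032.Lt.q R0Q034.q466_20) (q_cons (Vale.Agent.P032.Lt.q R0Q034.q466_21) (q_cons (Vale.Agent.P032.Lt.q R0Q034.q466_22) (q_cons (Vale.Agent.P032.Lt.q R0Q034.q466_23) q_nil))))))))))))))))))))))))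

theorem p467 : Pat 73 73 TBm TCm E R0Q035.P467 R0Q035.I467 := pat_step (by decide +kernel) (q_cons (Vale.Agent.P032.Lt.q R0Q035.q467_0) (q_cons (Vale.Agent.P032.Lt.q R0Q035.q467_1) (q_cons (Vale.Agent.P032.Lt.q R0Q035.q467_2) (q_cons (Vale.Agent.P032.Lt.q R0Q035.q467_3) (q_cons (Vale.Agent.P032.Lt.q R0Q035.q467_4) (q_cons (Vale.Agent.P032.Lt.q R0Q035.q467_5) (q_cons (Vale.Agent.P032.Lt.q R0Q035.q467_6) (q_cons (Vale.Agent.P032.Lt.q R0Q035.q467_7) (q_cons (Vale.Agent.P032.Lt.q R0Q035.q467_8) q_nil)))))))))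

theorem p468 : Pat 73 73 TBm TCm E R0Q035.P468 R0Q035.I468 := pat_step (by decide +kernel) (q_cons (Vale.Agent.P032.Lt.q R0Q035.q468_0) (q_cons (Vale.Agent.P032.Lt.q R0Q035.q468_1) (q_cons (Vale.Agent.P032.Lt.q R0Q035.q468_2) (q_cons (Vale.Agent.P032.Lt.q R0Q035.q468_3) (q_cons (Vale.Agent.P032.Lt.q R0Q035.q468_4) (q_cons (Vale.Agent.P032.Lt.q R0Q035.q468_5) (q_cons (Vale.Agent.P032.Lt.q R0Q035.q468_6) (q_cons (Vale.Agent.P032.Lt.q R0Q035.q468_7) (q_cons (Vale.Agent.P032.Lt.q R0Q035.q468_8) (q_cons (Vale.Agent.P032.Lt.q R0Q035.q468_9) (q_cons (Vale.Agent.P032.Lt.q R0Q035.q468_10) q_nil)))))))))))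

theorem p469 : Pat 73 73 TBm TCm E R0Q035.P469 R0Q035.I469 := pat_step (by decide +kernel) (q_cons (Vale.Agent.P032.Lt.q R0Q035.q469_0) (q_cons (Vale.Agent.P032.Lt.q R0Q035.q469_1) (q_cons (Vale.Agent.P032.Lt.q R0Q035.q469_2) (q_cons (Vale.Agent.P032.Lt.q R0Q035.q469_3) (q_cons (Vale.Agent.P032.Lt.q R0Q035.q469_4) (q_cons (Vale.Agent.P032.Lt.q R0Q035.q469_5) (q_cons (Vale.Agent.P032.Lt.q R0Q035.q469_6) (q_cons (Vale.Agent.P032.Lt.q R0Q035.q469_7) (q_cons (Vale.Agent.P032.Lt.q R0Q035.q469_8) (q_cons (Vale.Agent.P032.Lt.q R0Q035.q469_9) (q_cons (Vale.Agent.P032.Lt.q R0Q035.q469_10) q_nil)))))))))))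

theorem p470 : Pat 73 73 TBm TCm E R0Q035.P470 R0Q035.I470 := pat_step (by decide +kernel) (q_cons (Vale.Agent.P032.Lt.q R0Q035.q470_0) (q_cons (Vale.Agent.P032.Lt.q R0Q035.q470_1) (q_cons (Vale.Agent.P032.Lt.q R0Q035.q470_2) (q_cons (Vale.Agent.P032.Lt.q R0Q035.q470_3) (q_cons (Vale.Agent.P032.Lt.q R0Q035.q470_4) (q_cons (Vale.Agent.P032.Lt.q R0Q035.q470_5) (q_cons (Vale.Agent.P032.Lt.q R0Q035.q470_6) (q_cons (Vale.Agent.P032.Lt.q R0Q035.q470_7) (q_cons (Vale.Agent.P032.Lt.q R0Q035.q470_8) (q_cons (Vale.Agent.P032.Lt.q R0Q035.q470_9) (q_cons (Vale.Agent.P032.Lt.q R0Q035.q470_10) (q_cons (Vale.Agent.P032.Lt.q R0Q035.q470_11) (q_cons (Vale.Agent.P032.Lt.q R0Q035.q470_12) (q_cons (Vale.Agent.P032.Lt.q R0Q035.q470_13) (q_cons (Vale.Agent.P032.Lt.q R0Q035.q470_14) (q_cons (Vale.Agent.P032.Lt.q R0Q035.q470_15) (q_cons (Vale.Agent.P032.Lt.q R0Q035.q470_16) (q_cons (Vale.Agent.P032.Lt.q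 R0Q035.q470_17) (q_cons (Vale.Agent.P032.Lt.q R0Q035.q470_18) (q_cons (Vale.Agent.P032.Lt.q R0Q035.q470_19) q_nil))))))))))))))))))))

theorem p471 : Pat 73 73 TBm TCm E R0Q035.P471 R0Q035.I471 := pat_step (by decide +kernel) (q_cons (Vale.Agent.P032.Lt.q R0Q035.q471_0) q_nil)

theorem p472 : Pat 73 73 TBm TCm E R0Q035.P472 R0Q035.I472 := pat_step (by decide +kernel) (q_cons (Vale.Agent.P032.Lt.q R0Q035.q472_0) (q_cons (Vale.Agent.P032.Lt.q R0Q035.q472_1) (q_cons (Vale.Agent.P032.Lt.q R0Q035.q472_2) q_nil)))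

theorem p473 : Pat 73 73 TBm TCm E R0Q035.P473 R0Q035.I473 := pat_step (by decide +kernel) (q_cons (Vale.Agent.P032.Lt.q R0Q035.q473_0) q_nil)

theorem p474 : Pat 73 73 TBm TCm E R0Q036.P474 R0Q036.I474 := pat_step (by decide +kernel) (q_cons (Vale.Agent.P032.Lt.q R0Q036.q474_0) (q_cons (Vale.Agent.P032.Lt.q R0Q036.q474_1) (q_cons (Vale.Agent.P032.Lt.q R0Q036.q474_2) (q_cons (Vale.Agent.P032.Lt.q R0Q036.q474_3) q_nil))))

theorem p475 : Pat 73 73 TBm TCm E R0Q036.P475 R0Q036.I475 := pat_step (by decide +kernel) (q_cons (Vale.Agent.P032.Lt.q R0Q036.q475_0) (q_cons (Vale.Agent.P032.Lt.q R0Q036.q475_1) (q_cons (Vale.Agent.P032.Lt.q R0Q036.q475_2) (q_cons (Vale.Agent.P032.Lt.q R0Q036.q475_3) (q_cons (Vale.Agent.P032.Lt.q R0Q036.q475_4) (q_cons (Vale.Agent.P032.Lt.q R0Q036.q475_5) (q_cons (Vale.Agent.P032.Lt.q R0Q036.q475_6) (q_cons (Vale.Agent.P032.Lt.q R0Q036.q475_7) (q_cons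 (Vale.Agent.P032.Lt.q R0Q036.q475_8) (q_cons (Vale.Agent.P032.Lt.q R0Q036.q475_9) (q_cons (Vale.Agent.P032.Lt.q R0Q036.q475_10) (q_cons (Vale.Agent.P032.Lt.q R0Q036.q475_11) (q_cons (Vale.Agent.P032.Lt.q R0Q036.q475_12) (q_cons (Vale.Agent.P032.Lt.q R0Q036.q475_13) (q_cons (Vale.Agent.P032.Lt.q R0Q036.q475_14) q_nil)))))))))))))))

theorem p476 : Pat 73 73 TBm TCm E R0Q036.P476 R0Q036.I476 := pat_step (by decide +kernel) (q_cons (Vale.Agent.P032.Lt.q R0Q036.q476_0) (q_cons (Vale.Agent.P032.Lt.q R0Q036.q476_1) (q_cons (Vale.Agent.P032.Lt.q R0Q036.q476_2) (q_cons (Vale.Agent.P032.Lt.q R0Q036.q476_3) (q_cons (Vale.Agent.P032.Lt.q R0Q036.q476_4) (q_cons (Vale.Agent.P032.Lt.q R0Q036.q476_5) (q_cons (Vale.Agent.P032.Lt.q R0Q036.q476_6) (q_cons (Vale.Agent.P032.Lt.q R0Q036.q476_7) (q_cons (Vale.Agent.P032.Lt.q R0Q036.q476_8) (q_cons (Vale.Agent.P032.Lt.q R0Q036.q476_9) (q_cons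 (Vale.Agent.P032.Lt.q R0Q036.q476_10) (q_cons (Vale.Agent.P032.Lt.q R0Q036.q476_11) (q_cons (Vale.Agent.P032.Lt.q R0Q036.q476_12) (q_cons (Vale.Agent.P032.Lt.q R0Q036.q476_13) (q_cons (Vale.Agent.P032.Lt.q R0Q036.q476_14) (q_cons (Vale.Agent.P032.Lt.q R0Q036.q476_15) (q_cons (Vale.Agent.P032.Lt.q R0Q036.q476_16) (q_cons (Vale.Agent.P032.Lt.q R0Q036.q476_17) (q_cons (Vale.Agent.P032.Lt.q R0Q036.q476_18) (q_cons (Vale.Agent.P032.Lt.q R0Q036.q476_19) (q_cons (Vale.Agent.P032.Lt.q R0Q036.q476_20) q_nil)))))))))))))))))))))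

theorem p477 : Pat 73 73 TBm TCm E R0Q036.P477 R0Q036.I477 := pat_step (by decide +kernel) (q_cons (Vale.Agent.P032.Lt.q R0Q036.q477_0) (q_cons (Vale.Agent.P032.Lt.q R0Q036.q477_1) (q_cons (Vale.Agent.P032.Lt.q R0Q036.q477_2) (q_cons (Vale.Agent.P032.Lt.q R0Q036.q477_3) (q_cons (Vale.Agent.P032.Lt.q R0Q036.q477_4) (q_cons (Vale.Agent.P032.Lt.q R0Q036.q477_5) (q_cons (Vale.Agent.P032.Lt.q R0Q036.q477_6) (q_cons (Vale.Agent.P032.Lt.q R0Q036.q477_7) (q_cons (Vale.Agent.P032.Lt.q R0Q036.q477_8) q_nil)))))))))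

theorem p478 : Pat 73 73 TBm TCm E R0Q036.P478 R0Q036.I478 := pat_step (by decide +kernel) (q_cons (Vale.Agent.P032.Lt.q R0Q036.q478_0) (q_cons (Vale.Agent.P032.Lt.q R0Q036.q478_1) q_nil))

theorem p479 : Pat 73 73 TBm TCm E R0Q036.P479 R0Q036.I479 := pat_step (by decide +kernel) (q_cons (Vale.Agent.P032.Lt.q R0Q036.q479_0) (q_cons (Vale.Agent.P032.Lt.q R0Q036.q479_1) (q_cons (Vale.Agent.P032.Lt.q R0Q036.q479_2) (q_cons (Vale.Agent.P032.Lt.q R0Q036.q479_3) (q_cons (Vale.Agent.P032.Lt.q R0Q036.q479_4) (q_cons (Vale.Agent.P032.Lt.q R0Q036.q479_5) q_nil))))))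

theorem p480 : Pat 73 73 TBm TCm E R0Q036.P480 R0Q036.I480 := pat_step (by decide +kernel) (q_cons (Vale.Agent.P032.Lt.q R0Q036.q480_0) (q_cons (Vale.Agent.P032.Lt.q R0Q036.q480_1) (q_cons (Vale.Agent.P032.Lt.q R0Q036.q480_2) (q_cons (Vale.Agent.P032.Lt.q R0Q036.q480_3) (q_cons (Vale.Agent.P032.Lt.q R0Q036.q480_4) (q_cons (Vale.Agent.P032.Lt.q R0Q036.q480_5) (q_cons (Vale.Agent.P032.Lt.q R0Q036.q480_6) (q_cons (Vale.Agent.P032.Lt.q R0Q036.q480_7) q_nil))))))))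

theorem p481 : Pat 73 73 TBm TCm E R0Q036.P481 R0Q036.I481 := pat_step (by decide +kernel) (q_cons (Vale.Agent.P032.Lt.q R0Q036.q481_0) (q_cons (Vale.Agent.P032.Lt.q R0Q036.q481_1) (q_cons (Vale.Agent.P032.Lt.q R0Q036.q481_2) (q_cons (Vale.Agent.P032.Lt.q R0Q036.q481_3) (q_cons (Vale.Agent.P032.Lt.q R0Q036.q481_4) (q_cons (Vale.Agent.P032.Lt.q R0Q036.q481_5) q_nil))))))

theorem p482 : Pat 73 73 TBm TCm E R0Q036.P482 R0Q036.I482 := pat_step (by decide +kernel) (q_cons (Vale.Agent.P032.Lt.q R0Q036.q482_0) (q_cons (Vale.Agent.P032.Lt.q R0Q036.q482_1) (q_cons (Vale.Agent.P032.Lt.q R0Q036.q482_2) q_nil)))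

theorem p483 : Pat 73 73 TBm TCm E R0Q036.P483 R0Q036.I483 := pat_step (by decide +kernel) (q_cons (Vale.Agent.P032.Lt.q R0Q036.q483_0) (q_cons (Vale.Agent.P032.Lt.q R0Q036.q483_1) (q_cons (Vale.Agent.P032.Lt.q R0Q036.q483_2) (q_cons (Vale.Agent.P032.Lt.q R0Q036.q483_3) (q_cons (Vale.Agent.P032.Lt.q R0Q036.q483_4) (q_cons (Vale.Agent.P032.Lt.q R0Q036.q483_5) (q_cons (Vale.Agent.P032.Lt.q R0Q036.q483_6) (q_cons (Vale.Agent.P032.Lt.q R0Q036.q483_7) (q_cons (Vale.Agent.P032.Lt.q R0Q036.q483_8) (q_cons (Vale.Agent.P032.Lt.q R0Q036.q483_9) (q_cons (Vale.Agent.P032.Lt.q R0Q036.q483_10) q_nil)))))))))))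

theorem p484 : Pat 73 73 TBm TCm E R0Q037.P484 R0Q037.I484 := pat_step (by decide +kernel) (q_cons (Vale.Agent.P032.Lt.q R0Q037.q484_0) q_nil)

theorem p485 : Pat 73 73 TBm TCm E R0Q037.P485 R0Q037.I485 := pat_step (by decide +kernel) (q_cons (Vale.Agent.P032.Lt.q R0Q037.q485_0) q_nil)

theorem p486 : Pat 73 73 TBm TCm E R0Q037.P486 R0Q037.I486 := pat_step (by decide +kernel) (q_cons (Vale.Agent.P032.Lt.q R0Q037.q486_0) (q_cons (Vale.Agent.P032.Lt.q R0Q037.q486_1) (q_cons (Vale.Agent.P032.Lt.q R0Q037.q486_2) q_nil)))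

theorem p487 : Pat 73 73 TBm TCm E R0Q037.P487 R0Q037.I487 := pat_step (by decide +kernel) (q_cons (Vale.Agent.P032.Lt.q R0Q037.q487_0) q_nil)

theorem p488 : Pat 73 73 TBm TCm E R0Q037.P488 R0Q037.I488 := pat_step (by decide +kernel) (q_cons (Vale.Agent.P032.Lt.q R0Q037.q488_0) q_nil)

theorem p489 : Pat 73 73 TBm TCm E R0Q037.P489 R0Q037.I489 := pat_step (by decide +kernel) (q_cons (Vale.Agent.P032.Lt.q R0Q037.q489_0) q_nil)

theorem p490 : Pat 73 73 TBm TCm E R0Q037.P490 R0Q037.I490 := pat_step (by decide +kernel) (q_cons (Vale.Agent.P032.Lt.q R0Q037.q490_0) q_nil)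

theorem p491 : Pat 73 73 TBm TCm E R0Q037.P491 R0Q037.I491 := pat_step (by decide +kernel) (q_cons (Vale.Agent.P032.Lt.q R0Q037.q491_0) q_nil)

theorem p492 : Pat 73 73 TBm TCm E R0Q037.P492 R0Q037.I492 := pat_step (by decide +kernel) (q_cons (Vale.Agent.P032.Lt.q R0Q037.q492_0) q_nil)

theorem p493 : Pat 73 73 TBm TCm E R0Q037.P493 R0Q037.I493 := pat_step (by decide +kernel) (q_cons (Vale.Agent.P032.Lt.q R0Q037.q493_0) (q_cons (Vale.Agent.P032.Lt.q R0Q037.q493_1) (q_cons (Vale.Agent.P032.Lt.q R0Q037.q493_2) q_nil)))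

theorem p494 : Pat 73 73 TBm TCm E R0Q037.P494 R0Q037.I494 := pat_step (by decide +kernel) (q_cons (Vale.Agent.P032.Lt.q R0Q037.q494_0) (q_cons (Vale.Agent.P032.Lt.q R0Q037.q494_1) q_nil))

theorem p495 : Pat 73 73 TBm TCm E R0Q037.P495 R0Q037.I495 := pat_step (by decide +kernel) (q_cons (Vale.Agent.P032.Lt.q R0Q037.q495_0) q_nil)

theorem p496 : Pat 73 73 TBm TCm E R0Q037.P496 R0Q037.I496 := pat_step (by decide +kernel) (q_cons (Vale.Agent.P032.Lt.q R0Q037.q496_0) q_nil)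

theorem p497 : Pat 73 73 TBm TCm E R0Q038.P497 R0Q038.I497 := pat_step (by decide +kernel) (q_cons (Vale.Agent.P032.Lt.q R0Q038.q497_0) q_nil)

theorem p498 : Pat 73 73 TBm TCm E R0Q038.P498 R0Q038.I498 := pat_step (by decide +kernel) (q_cons (Vale.Agent.P032.Lt.q R0Q038.q498_0) q_nil)

def L : List (List ℕ) := [R0Q029.P375, R0Q029.P376, R0Q029.P377, R0Q029.P378, R0Q029.P379, R0Q029.P380, R0Q029.P381, R0Q029.P382, R0Q029.P383, R0Q029.P384, R0Q029.P385, R0Q029.P386, R0Q029.P387, R0Q029.P388, R0Q030.P389, R0Q030.P390, R0Q030.P391, R0Q030.P392, R0Q030.P393, R0Q030.P394, R0Q030.P395, R0Q030.P396, R0Q030.P397, R0Q030.P398, R0Q030.P399, R0Q030.P400, R0Q030.P401, R0Q030.P402, R0Q030.P403, R0Q030.P404, R0Q031.P405, R0Q031.P406, R0Q031.P407, R0Q031.P408, R0Q031.P409, R0Q031.P410, R0Q031.P411, R0Q031.P412, R0Q031.P413, R0Q031.P414, R0Q031.P415, R0Q031.P416, R0Q031.P417, R0Q031.P418,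 R0Q031.P419, R0Q031.P420, R0Q031.P421, R0Q031.P422, R0Q032.P423, R0Q032.P424, R0Q032.P425, R0Q032.P426, R0Q032.P427, R0Q032.P428, R0Q032.P429, R0Q032.P430, R0Q032.P431, R0Q032.P432, R0Q032.P433, R0Q032.P434, R0Q032.P435, R0Q032.P436, R0Q033.P437, R0Q033.P438, R0Q033.P439, R0Q033.P440, R0Q033.P441, R0Q033.P442, R0Q033.P443, R0Q033.P444, R0Q033.P445, R0Q033.P446, R0Q033.P447, R0Q033.P448, R0Q033.P449, R0Q033.P450, R0Q033.P451, R0Q033.P452, R0Q033.P453, R0Q033.P454, R0Q033.P455, R0Q033.P456, R0Q034.P457, R0Q034.P458, R0Q034.P459, R0Q034.P460, R0Q034.P461, R0Q034.P462, R0Q034.P463, R0Q034.P464, R0Q034.P465, R0Q034.P466, R0Q035.P467, R0Q035.P468, R0Q035.P469, R0Q035.P470, R0Q035.P471, R0Q035.P472, R0Q035.P473, R0Q036.P474, R0Q036.P475, R0Q036.P476, R0Q036.P477, R0Q036.P478, R0Q036.P479, R0Q036.P480, R0Q036.P481, R0Q036.P482, R0Q036.P483, R0Q037.P484, R0Q037.P485, R0Q037.P486,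 R0Q037.P487, R0Q037.P488, R0Q037.P489, R0Q037.P490, R0Q037.P491, R0Q037.P492, R0Q037.P493, R0Q037.P494, R0Q037.P495, R0Q037.P496, R0Q038.P497, R0Q038.P498]

theorem all : ∀ P ∈ L, Crt 73 73 TBm TCm E P := crt_cons p375 (crt_cons p376 (crt_cons p377 (crt_cons p378 (crt_cons p379 (crt_cons p380 (crt_cons p381 (crt_cons p382 (crt_cons p383 (crt_cons p384 (crt_cons p385 (crt_cons p386 (crt_cons p387 (crt_cons p388 (crt_cons p389 (crt_cons p390 (crt_cons p391 (crt_cons p392 (crt_cons p393 (crt_cons p394 (crt_cons p395 (crt_cons p396 (crt_cons p397 (crt_cons p398 (crt_cons p399 (crt_cons p400 (crt_cons p401 (crt_cons p402 (crt_cons p403 (crt_cons p404 (crt_cons p405 (crt_cons p406 (crt_cons p407 (crt_cons p408 (crt_cons p409 (crt_cons p410 (crt_cons p411 (crt_cons p412 (crt_cons p413 (crt_cons p414 (crt_cons p415 (crt_cons p416 (crt_cons p417 (crt_cons p418 (crt_cons p419 (crt_cons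 p420 (crt_cons p421 (crt_cons p422 (crt_cons p423 (crt_cons p424 (crt_cons p425 (crt_cons p426 (crt_cons p427 (crt_cons p428 (crt_cons p429 (crt_cons p430 (crt_cons p431 (crt_cons p432 (crt_cons p433 (crt_cons p434 (crt_cons p435 (crt_cons p436 (crt_cons p437 (crt_cons p438 (crt_cons p439 (crt_cons p440 (crt_cons p441 (crt_cons p442 (crt_cons p443 (crt_cons p444 (crt_cons p445 (crt_cons p446 (crt_cons p447 (crt_cons p448 (crt_cons p449 (crt_cons p450 (crt_cons p451 (crt_cons p452 (crt_cons p453 (crt_cons p454 (crt_cons p455 (crt_cons p456 (crt_cons p457 (crt_cons p458 (crt_cons p459 (crt_cons p460 (crt_cons p461 (crt_cons p462 (crt_cons p463 (crt_cons p464 (crt_cons p465 (crt_cons p466 (crt_cons p467 (crt_cons p468 (crt_cons p469 (crt_cons p470 (crt_cons p471 (crt_cons p472 (crt_cons p473 (crt_cons p474 (crt_cons p475 (crt_cons p476 (crt_cons p477 (crt_cons p478 (crt_cons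 p479 (crt_cons p480 (crt_cons p481 (crt_cons p482 (crt_cons p483 (crt_cons p484 (crt_cons p485 (crt_cons p486 (crt_cons p487 (crt_cons p488 (crt_cons p489 (crt_cons p490 (crt_cons p491 (crt_cons p492 (crt_cons p493 (crt_cons p494 (crt_cons p495 (crt_cons p496 (crt_cons p497 (crt_cons p498 crt_nil)))))))))))))))))))))))))))))))))))))))))))))))))))))))))))))))))))))))))))))))))))))))))))))))))))))))))))))))))))))))))))

end Vale.Agent.P032X.Cert.X1b.A.R0H003
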