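import Vale.Agent.P032X.H286.W73
import Vale.Agent.P032X.Cert.X1b.A.R0T
import Vale.Agent.P032X.Cert.X1b.A.R0H000
import Vale.Agent.P032X.Cert.X1b.A.R0H001
import Vale.Agent.P032X.Cert.X1b.A.R0H002
import Vale.Agent.P032X.Cert.X1b.A.R0H003

namespace Vale.Agent.P032X.Cert.X1b.A

open Vale.Agent.P032.H820.K Vale.Agent.P032.H357.MK Vale.Agent.P032.H286.E Vale.Agent.P032.H61 Vale.Agent.P032.H61.TF Vale.Agent.P032.BlkE Vale.Agent.P032.BlkS Vale.Agent.P032.H357 Vale.Agent.P032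

def L0 : List (List ℕ) := ((R0H000.L ++ R0H001.L) ++ (R0H002.L ++ R0H003.L))

theorem all0 : ∀ P ∈ L0, Crt 73 73 TBm TCm (EZ 31) P :=
  (List.forall_mem_append.2 ⟨(List.forall_mem_append.2 ⟨R0H000.all, R0H001.all⟩), (List.forall_mem_append.2 ⟨R0H002.all, R0H003.all⟩)⟩)

theorem ch0 : chT 73 73 TCm tr0 L0 = true := by decide +kernel

theorem d0 : D1 tr0 := d1_of ch0 all0

end Vale.Agent.P032X.Cert.X1b.A
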